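import Vale.Agent.P284Z.E.Bd
import Vale.Agent.P284Z.Spec

/-!
# P284Z, block E: the level `j` data
-/

set_option linter.all false

open scoped ContDiff Topology
open Filter Set Metric

noncomputable section

namespace Vale.Agent.P284Z.E

open Ang Vale.Agent.P272.K

/-! ### exponents -/

section num
variable {p j l q : ℕ} {x y : ℝ}

/-- the exponent -/
def bt (p j : ℕ) : ℝ := ((j * rr p j : ℕ) : ℝ)⁻¹

theorem bt_nonneg : 0 ≤ bt p j := inv_nonneg.2 (Nat.cast_nonneg _)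

theorem jr_ne : (j + 1) * rr p (j + 1) ≠ 0 := mul_ne_zero j.succ_ne_zero rr_pos.ne'

theorem bt_pos : 0 < bt p (j + 1) := inv_pos.2 (Nat.cast_pos.2 (Nat.pos_of_ne_zero jr_ne))

theorem rt_pow (hx : 0 ≤ x) : (x ^ ((j + 1) * rr p (j + 1))) ^ bt p (j + 1) = x :=
  Real.pow_rpow_inv_natCast hx jr_ne

theorem rt_pow' (hx : 0 ≤ x) : (x ^ bt p (j + 1)) ^ ((j + 1) * rr p (j + 1)) = x :=
  Real.rpow_inv_natCast_pow hx jr_ne

theorem rr_bt : (rr p (j + 1) : ℝ) * bt p (j + 1) = 1 / (j + 1) := by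
  have : (0 : ℝ) < rr p (j + 1) := Nat.cast_pos.2 rr_pos
  rw [bt]; push_cast; field_simp

theorem rt_r (hx : 0 ≤ x) : (x ^ rr p (j + 1)) ^ bt p (j + 1) = x ^ (1 / (j + 1 : ℝ)) := by
  rw [← Real.rpow_natCast, ← Real.rpow_mul hx, rr_bt]

theorem NN_bt : (NN p (j + 1) : ℝ) * bt p (j + 1) = 1 / (p + 1) := by
  have h : ((p + 1) * NN p (j + 1) : ℝ) = ((j + 1) * rr p (j + 1) : ℕ) := by exact_mod_cast NN_eq
  have h1 : (0 : ℝ) < ((j + 1) * rr p (j + 1) : ℕ) := Nat.cast_pos.2 (Nat.pos_of_ne_zero jr_ne)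
  rw [bt, ← div_eq_mul_inv, div_eq_div_iff h1.ne' (by positivity), ← h]; ring

theorem rt_max {β : ℝ} (hβ : 0 ≤ β) (hx : 0 ≤ x) (hy : 0 ≤ y) : max x y ^ β = max (x ^ β) (y ^ β) := by
  rcases le_total x y with h | h
  · rw [max_eq_right h, max_eq_right (Real.rpow_le_rpow hx h hβ)]
  · rw [max_eq_left h, max_eq_left (Real.rpow_le_rpow hy h hβ)]

theorem rt_mul {β u v : ℝ} (hx : 0 ≤ x) (hy : 0 ≤ y) (hu : 0 < u) (hv : 0 < v) :
    (x / u) ^ β * (y / v) ^ β = (x * y / (u * v)) ^ β := by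
  rw [← Real.mul_rpow (by positivity) (by positivity), div_mul_div_comm]

theorem rt_pos {β u : ℝ} (hβ : 0 < β) (hx : 0 ≤ x) (hu : 0 < u) : 0 < (x / u) ^ β ↔ 0 < x := by
  refine ⟨fun h => hx.lt_of_ne fun e => ?_, fun h => Real.rpow_pos_of_pos (by positivity) _⟩
  rw [← e, zero_div, Real.zero_rpow hβ.ne'] at h
  exact lt_irrefl _ h

theorem le_rr (hp : 1 ≤ p) : j + 1 ≤ rr p j := by
  have := Fintype.card_le_of_injective (β := Idx p j) (fun t : Fin (j + 1) =>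
    (⟨Pi.single ⟨0, hp⟩ t, by simpa using Nat.lt_succ_iff.1 t.2⟩ : Idx p j)) fun t t' h =>
      Fin.ext (by simpa using congrFun (congrArg Subtype.val h) ⟨0, hp⟩)
  rwa [Fintype.card_fin] at this

/-- the number of small angles at the level `l` -/
def kk (p q l j : ℕ) : ℕ := rr p j / (q * 4 ^ l)

theorem kk_succ : 4 * kk p q (l + 1) j ≤ kk p q l j := by
  rw [kk, kk, pow_succ, ← mul_assoc, ← Nat.div_div_eq_div_mul]
  exact Nat.mul_div_le _ _

theorem kk_ev (hp : 1 ≤ p) (hq : 1 ≤ q) (l : ℕ) : ∀ᶠ j in atTop, 1 ≤ kk p q l (j + 1) ∧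
    rr p (j + 1) ≤ 2 * (q * 4 ^ l) * kk p q l (j + 1) := by
  filter_upwards [eventually_ge_atTop (q * 4 ^ l)] with j hj
  have h0 : 0 < q * 4 ^ l := by positivity
  have h1 : 1 ≤ kk p q l (j + 1) := (Nat.one_le_div_iff h0).2 (by have := le_rr (j := j + 1) hp; omega)
  have h2 := Nat.lt_mul_div_succ (rr p (j + 1)) h0
  refine ⟨h1, h2.le.trans ?_⟩
  rw [← kk]; nlinarith

theorem kk_le (hq : 1 ≤ q) : (kk p q l j : ℝ) / rr p j ≤ 1 / (q * 4 ^ l) := by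
  have h0 : (0 : ℝ) < rr p j := Nat.cast_pos.2 rr_pos
  have h1 : (0 : ℝ) < q := Nat.cast_pos.2 hq
  rw [div_le_div_iff₀ h0 (by positivity), one_mul]
  exact_mod_cast Nat.div_mul_le_self _ _

theorem tend_inv : Tendsto (fun j : ℕ => 1 / (j + 1 : ℝ)) atTop (𝓝 0) :=
  tendsto_one_div_add_atTop_nhds_zero_nat

end num

variable {n : ℕ} {Γ E : Type} [Group Γ] [TopologicalSpace E] [MulAction Γ E] {C : Cov n Γ E}
  {P : Pol C} {J : IX Γ} {m p j k : ℕ} {V : HSec P J m}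

theorem exists_max (hV : V.VD p) (j : ℕ) : ∃ μ > (0 : ℝ), (∀ y, F0 V p (j + 1) y ≤ μ) ∧
    ∃ x ∈ C.K₁, F0 V p (j + 1) x = μ := by
  obtain ⟨y, hy⟩ := F0_pos (j := j + 1) hV j.succ_pos
  obtain ⟨γ, hγ⟩ := C.exists_smul_mem y
  obtain ⟨x, hx, h⟩ := C.isCompact_K₁.exists_isMaxOn ⟨_, hγ⟩
    (F0_cont (j := j + 1) hV j.succ_pos).continuousOn
  have h1 : ∀ y, F0 V p (j + 1) y ≤ F0 V p (j + 1) x := fun y => by
    obtain ⟨γ, hγ⟩ := C.exists_smul_mem y
    rw [← F0_inv hV j.succ_pos γ]; exact h hγ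
  exact ⟨_, hy.trans_le (h1 y), h1, x, hx, rfl⟩

/-- the normalising constant -/
def mu (hV : V.VD p) (j : ℕ) : ℝ := (exists_max hV j).choose

theorem mu_pos (hV : V.VD p) (j : ℕ) : 0 < mu hV j := (exists_max hV j).choose_spec.1

theorem mu2 (hV : V.VD p) (j : ℕ) : 0 < mu hV j * mu hV j := mul_pos (mu_pos hV j) (mu_pos hV j)

theorem le_mu (hV : V.VD p) (j : ℕ) (y : E) : F0 V p (j + 1) y ≤ mu hV j :=
  (exists_max hV j).choose_spec.2.1 y

/-- the function `F` -/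
def Fn (hV : V.VD p) (j : ℕ) (y : E) : ℝ := (F0 V p (j + 1) y / mu hV j) ^ bt p (j + 1)

/-- the function `W` -/
def Wn (hV : V.VD p) (q l j : ℕ) (x y : E) : ℝ :=
  (W0 V p (kk p q l (j + 1)) (j + 1) x y / (mu hV j * mu hV j)) ^ bt p (j + 1)

/-- the error -/
def ep (p j : ℕ) : ℝ := (18 ^ rr p (j + 1)) ^ bt p (j + 1)

theorem ep_eq : ep p j = 18 ^ (1 / (j + 1 : ℝ)) := rt_r (by norm_num)

theorem ep_le : ep p j ≤ 18 := by
  rw [ep_eq]
  refine (Real.rpow_le_rpow_of_exponent_le (by norm_num) (y := 1 / (j + 1 : ℝ)) (z := 1) ?_).trans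
    (by simp)
  rw [div_le_one (by positivity)]; simp

variable (hV : V.VD p) {q l : ℕ} {x y : E}

theorem Fn_nonneg : 0 ≤ Fn hV j y := Real.rpow_nonneg (div_nonneg (F0_nonneg _) (mu_pos hV j).le) _

theorem Wn_nonneg : 0 ≤ Wn hV q l j x y := Real.rpow_nonneg (div_nonneg (W0_nonneg _ _) (mu2 hV j).le) _

theorem Fn_le : Fn hV j y ≤ 1 := Real.rpow_le_one (div_nonneg (F0_nonneg _) (mu_pos hV j).le)
  ((div_le_one (mu_pos hV j)).2 (le_mu hV j y)) bt_nonneg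

theorem Fn_pos : 0 < Fn hV j y ↔ 0 < F0 V p (j + 1) y := rt_pos bt_pos (F0_nonneg _) (mu_pos hV j)

theorem Fn_mul (x y : E) : Fn hV j x * Fn hV j y =
    (F0 V p (j + 1) x * F0 V p (j + 1) y / (mu hV j * mu hV j)) ^ bt p (j + 1) :=
  rt_mul (F0_nonneg _) (F0_nonneg _) (mu_pos hV j) (mu_pos hV j)

theorem two_le : (2 : ℝ) ^ k ≤ 18 ^ k := pow_le_pow_left₀ (by norm_num) (by norm_num) _

theorem Wn_le : Wn hV q l j x y ≤ ep p j * (Fn hV j x * Fn hV j y) := by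
  have h := mul_nonneg (F0_nonneg (V := V) (p := p) (j := j + 1) x) (F0_nonneg (V := V) (p := p) (j := j + 1) y)
  rw [Fn_mul, ep, ← Real.mul_rpow (by positivity) (div_nonneg h (mu2 hV j).le), ← mul_div_assoc]
  exact Real.rpow_le_rpow (div_nonneg (W0_nonneg _ _) (mu2 hV j).le) (div_le_div_of_nonneg_right
    ((W0_le x y).trans (mul_le_mul_of_nonneg_right two_le h)) (mu2 hV j).le) bt_nonneg

theorem Wn_bd : Wn hV q l j x y ≤ 18 := (Wn_le hV).trans (by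
  have h1 := mul_le_one₀ (Fn_le hV (j := j) (y := x)) (Fn_nonneg hV (j := j) (y := y)) (Fn_le hV)
  have h2 := mul_nonneg (Fn_nonneg hV (j := j) (y := x)) (Fn_nonneg hV (j := j) (y := y))
  have h3 := ep_le (p := p) (j := j)
  nlinarith)

theorem Wn_chain (h : 1 ≤ kk p q (l + 1) (j + 1)) (x₁ x₂ x₃ x₄ : E) :
    Wn hV q l j x₁ x₄ * (Fn hV j x₂ * Fn hV j x₃) ≤
      ep p j * max (Wn hV q (l + 1) j x₁ x₂ * (Fn hV j x₃ * Fn hV j x₄))
        (max (Wn hV q (l + 1) j x₂ x₃ * (Fn hV j x₁ * Fn hV j x₄))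
          (Wn hV q (l + 1) j x₃ x₄ * (Fn hV j x₁ * Fn hV j x₂))) := by
  have h0 : ∀ l x y u v, 0 ≤ W0 V p (kk p q l (j + 1)) (j + 1) x y *
      (F0 V p (j + 1) u * F0 V p (j + 1) v) := fun l x y u v =>
    mul_nonneg (W0_nonneg _ _) (mul_nonneg (F0_nonneg _) (F0_nonneg _))
  have h4 := mul_pos (mu2 hV j) (mu2 hV j)
  have h1 : ∀ l x y u v, Wn hV q l j x y * (Fn hV j u * Fn hV j v) =
      (W0 V p (kk p q l (j + 1)) (j + 1) x y * (F0 V p (j + 1) u * F0 V p (j + 1) v) /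
        (mu hV j * mu hV j * (mu hV j * mu hV j))) ^ bt p (j + 1) := fun l x y u v => by
    rw [Fn_mul, Wn, rt_mul (W0_nonneg _ _) (mul_nonneg (F0_nonneg _) (F0_nonneg _)) (mu2 hV j) (mu2 hV j)]
  have h2 := fun l x y u v => div_nonneg (h0 l x y u v) h4.le
  rw [h1, h1, h1, h1, ← rt_max bt_nonneg (h2 ..) (h2 ..), ← rt_max bt_nonneg (h2 ..)
    (le_max_of_le_left (h2 ..)), ep, ← Real.mul_rpow (by positivity) (le_max_of_le_left (h2 ..)),
    max_div_div_right h4.le, max_div_div_right h4.le, ← mul_div_assoc]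
  exact Real.rpow_le_rpow (h2 ..) (div_le_div_of_nonneg_right
    (W0_chain hV j.succ_pos h kk_succ ..) h4.le) bt_nonneg

theorem ex_bt : ex P m p (j + 1) * bt p (j + 1) ≤ m + P.N + 1 := by
  rw [ex]; push_cast
  rw [add_mul, mul_assoc, mul_assoc, mul_assoc, rr_bt, NN_bt]
  have h1 : 1 / (j + 1 : ℝ) ≤ 1 := by rw [div_le_one (by positivity)]; simp
  have h2 : p * (1 / (p + 1 : ℝ)) ≤ 1 := by rw [mul_one_div, div_le_one (by positivity)]; simp
  have h3 := mul_le_mul_of_nonneg_left h1 (Nat.cast_nonneg m)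
  have h4 := mul_le_mul_of_nonneg_left h2 (Nat.cast_nonneg P.N)
  linarith

/-- the order of the pole -/
def cc (p q l : ℕ) : ℝ := 1 / (32 * p * (q * 4 ^ l) ^ 2)

theorem Wn_pole (hq : 1 ≤ q) (l : ℕ) : ∃ K : ℝ, ∀ᶠ j in atTop, ∀ a, ∀ z ∈ C.B 3 a, ∀ z' ∈ C.B 3 a,
    Wn hV q l j (C.pt 1 a z) (C.pt 1 a z') ≤ K * ‖z - z'‖ ^ cc p q l := by
  obtain ⟨r₀, hr₀, hr⟩ := C.exists_r
  obtain ⟨M, hM, hρ⟩ := ρ_bdd C
  have hp : (0 : ℝ) < p := Nat.cast_pos.2 hV.one_le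
  have hq' : (0 : ℝ) < q := Nat.cast_pos.2 hq
  have hc : 0 < cc p q l := by unfold cc; positivity
  set A : ℝ := m + P.N + 1 with hA
  have hA0 : 0 < A := by positivity
  set R := r₀ / 4 with hR
  have hR0 : 0 < R := by positivity
  set X := Real.exp (A * M + A * M) with hX
  have hX1 : 1 ≤ X := Real.one_le_exp (by positivity)
  refine ⟨X * (18 * X / R ^ cc p q l), ?_⟩
  filter_upwards [kk_ev hV.one_le hq l] with j hj a z hz w hw
  have hz4 : z ∈ C.B 4 a := C.B_mono (by norm_num) a hz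
  rw [norm_sub_rev]
  rcases le_total ‖w - z‖ R with h | h
  swap
  · refine (Wn_bd hV).trans ?_
    have h1 : R ^ cc p q l ≤ ‖w - z‖ ^ cc p q l := Real.rpow_le_rpow hR0.le h hc.le
    have h2 : 0 < R ^ cc p q l := by positivity
    calc (18 : ℝ) ≤ X * (18 * X / R ^ cc p q l) * R ^ cc p q l := by
          rw [mul_assoc, div_mul_cancel₀ _ h2.ne']; nlinarith
      _ ≤ _ := mul_le_mul_of_nonneg_left h1 (by positivity)
  have hsub : closedBall z R ⊆ C.B (7 / 2) a :=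
    C.closedBall_sub (C.B_sub_cB 3 a hz) (by have := hr a; have := C.r_pos a; linarith)
  have hb : ∀ u ∈ closedBall z R, |A * C.ρ a z + A * C.ρ a u| ≤ A * M + A * M := fun u hu => by
    refine (abs_add_le _ _).trans (add_le_add ?_ ?_) <;> rw [abs_mul, abs_of_pos hA0]
    · exact mul_le_mul_of_nonneg_left (hρ a z (C.B_sub_cB _ a (hsub (mem_closedBall_self hR0.le)))) hA0.le
    · exact mul_le_mul_of_nonneg_left (hρ a u (C.B_sub_cB _ a (hsub hu))) hA0.le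
  set r := rr p (j + 1) with hr'
  set k := kk p q l (j + 1) with hk
  have hr0 : (0 : ℝ) < r := Nat.cast_pos.2 rr_pos
  set N := ⌈((k : ℝ) ^ 2 * (j + 1)) / (4 * p * r)⌉₊ with hN
  obtain ⟨K, hK, hl⟩ := W0_pole (k := k) (N := N) hV j.succ_pos hz4 fun T hT => by
    rw [hN, Nat.ceil_le, div_le_iff₀ (by positivity), ← hT, mul_comm _ (4 * p * r : ℝ)]
    exact_mod_cast idx_sum hV.one_le T
  have hs : 2 * cc p q l ≤ N * bt p (j + 1) := by
    refine le_trans ?_ (mul_le_mul_of_nonneg_right (Nat.le_ceil _) bt_nonneg)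
    have h1 : (r : ℝ) ≤ 2 * (q * 4 ^ l) * k := by exact_mod_cast hj.2
    have h2 := pow_le_pow_left₀ hr0.le h1 2
    rw [bt, cc, ← hr', ← div_eq_mul_inv, div_div, mul_one_div]
    push_cast
    rw [div_le_div_iff₀ (by positivity) (by positivity)]
    have h3 : (0 : ℝ) < p * (j + 1) := by positivity
    nlinarith [mul_le_mul_of_nonneg_left h2 h3.le]
  have hf := (W0_psh (k := k) hV j.succ_pos (mu2 hV j) bt_nonneg ex_bt 1 a a).right hz4
  have h1 := schwarz hf hR0 (B := 18 * X) (by positivity) hc hs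
    (hsub.trans (C.B_mono (by norm_num) a))
    (fun u hu => mul_le_mul (Wn_bd hV) (Real.exp_le_exp.2 (abs_le.1 (hb u hu)).2) (Real.exp_pos _).le
      (by norm_num)) (K := (K / (mu hV j * mu hV j)) ^ bt p (j + 1) * X) ?_ (mem_closedBall_iff_norm.2 h)
  · have h2 : 1 ≤ X * Real.exp (A * C.ρ a z + A * C.ρ a w) := by
      rw [hX, ← Real.exp_add]
      exact Real.one_le_exp (by linarith [(abs_le.1 (hb w (mem_closedBall_iff_norm.2 h))).1])
    rw [mul_assoc]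
    refine le_trans ?_ (mul_le_mul_of_nonneg_left h1 (by positivity))
    rw [mul_left_comm]
    exact le_mul_of_one_le_right (Wn_nonneg hV) h2
  · filter_upwards [hl, closedBall_mem_nhds z hR0] with u h2 hu
    rw [mul_right_comm]
    refine mul_le_mul ?_ (Real.exp_le_exp.2 (abs_le.1 (hb u hu)).2) (Real.exp_pos _).le
      (mul_nonneg (Real.rpow_nonneg (div_nonneg hK (mu2 hV j).le) _) (by positivity))
    rw [Real.rpow_mul (norm_nonneg _), Real.rpow_natCast,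
      ← Real.mul_rpow (div_nonneg hK (mu2 hV j).le) (by positivity), div_mul_eq_mul_div]
    exact Real.rpow_le_rpow (div_nonneg (W0_nonneg _ _) (mu2 hV j).le)
      (div_le_div_of_nonneg_right h2 (mu2 hV j).le) bt_nonneg

theorem Wn_reiter (hq : 1 ≤ q) (l : ℕ) (θ : ℝ) (hθ : θ < 1) : ∀ᶠ j in atTop, ∀ x y, 0 < Fn hV j x →
    0 < Fn hV j y → Wn hV q l j x y ≤ θ * (Fn hV j x * Fn hV j y) →
    ∑' g, |mm V p (j + 1) x g - mm V p (j + 1) y g| ≤ 4 / (q * 4 ^ l) := by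
  have hq' : (0 : ℝ) < q := Nat.cast_pos.2 hq
  set s := Real.sqrt (max θ 0) with hs
  have h0 : 0 ≤ s := Real.sqrt_nonneg _
  have h1 : s < 1 := by rw [hs, Real.sqrt_lt' one_pos]; simpa using hθ
  have h2 : s ^ 2 = max θ 0 := Real.sq_sqrt (le_max_right _ _)
  have h3 := ((tendsto_pow_atTop_nhds_zero_of_lt_one h0 h1).comp (tendsto_add_atTop_nat 1)).eventually
    (gt_mem_nhds (show (0 : ℝ) < 1 / (q * 4 ^ l) / 3 by positivity))
  filter_upwards [kk_ev hV.one_le hq l, h3] with j hj h3 x y hx hy h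
  have hF := mul_nonneg (F0_nonneg (V := V) (p := p) (j := j + 1) x)
    (F0_nonneg (V := V) (p := p) (j := j + 1) y)
  refine (mm_reiter hV j.succ_pos hj.1 (s := s ^ (j + 1)) (by positivity) ((Fn_pos hV).1 hx)
    ((Fn_pos hV).1 hy) ?_).trans ?_
  · have h4 := pow_le_pow_left₀ (Wn_nonneg hV) (h.trans (mul_le_mul_of_nonneg_right (le_max_left θ 0)
      (mul_pos hx hy).le)) ((j + 1) * rr p (j + 1))
    rw [Wn, rt_pow' (div_nonneg (W0_nonneg _ _) (mu2 hV j).le), mul_pow, Fn_mul,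
      rt_pow' (div_nonneg hF (mu2 hV j).le), ← mul_div_assoc, div_le_div_iff_of_pos_right (mu2 hV j),
      ← h2, ← pow_mul] at h4
    refine h4.trans (mul_le_mul_of_nonneg_right ?_ hF)
    rw [← pow_mul]
    refine pow_le_pow_of_le_one h0 h1.le ?_
    have h5 : kk p q l (j + 1) ≤ rr p (j + 1) := Nat.div_le_self _ _
    nlinarith
  · have h4 := kk_le (p := p) (l := l) (j := j + 1) hq
    have h5 : (4 : ℝ) / (q * 4 ^ l) = 4 * (1 / (q * 4 ^ l)) := by ring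
    have h6 : s ^ (j + 1) < 1 / (q * 4 ^ l) / 3 := h3
    rw [h5]; linarith

/-- the level `j` data -/
def ld (hq : 1 ≤ q) {S : Set Γ} (hS : S.Finite) (hg : ∀ μ : Γ → ℝ, (∀ g, 0 ≤ μ g) → HasSum μ 1 →
    ∃ s ∈ S, (4 : ℝ) / q < ∑' h, |μ (s⁻¹ * h) - μ h|) : LD C where
  A := m + P.N + 1
  A_pos := by positivity
  F := Fn hV
  W := Wn hV q
  ε := ep p
  one_le j := by rw [ep_eq]; exact Real.one_le_rpow (by norm_num) (by positivity)
  ε_tend := by
    have := ((Real.continuousAt_const_rpow (a := 18) (b := 0) (by norm_num)).tendsto.comp tend_inv)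
    rw [Real.rpow_zero] at this
    exact this.congr fun j => ep_eq.symm
  F_cont j := ((F0_cont hV j.succ_pos).div_const _).rpow_const fun _ => Or.inr bt_nonneg
  F_nonneg j y := Fn_nonneg hV
  F_le j y := Fn_le hV
  F_inv j γ y := by rw [Fn, F0_inv hV j.succ_pos, Fn]
  F_psh j a := F0_psh hV j.succ_pos (mu_pos hV j) bt_nonneg ex_bt a
  F_sm j a z hz h := ((F0_cd hV j.succ_pos 1 hz).div_const _).rpow_const_of_ne
    (div_pos ((Fn_pos hV).1 h) (mu_pos hV j)).ne'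
  W_cont l j := ((W0_cont hV j.succ_pos).div_const _).rpow_const fun _ => Or.inr bt_nonneg
  W_nonneg l j x y := Wn_nonneg hV
  W_le l j x y := Wn_le hV
  W_inv l j γ x y := by rw [Wn, W0_inv hV j.succ_pos, Wn]
  W_symm l j x y := by rw [Wn, W0_symm, Wn]
  W_psh l j γ a b := W0_psh hV j.succ_pos (mu2 hV j) bt_nonneg ex_bt γ a b
  W_sm l j x γ b z hz h := ((W0_cd' hV j.succ_pos x γ hz).div_const _).rpow_const_of_ne
    (div_pos ((rt_pos bt_pos (W0_nonneg _ _) (mu2 hV j)).1 h) (mu2 hV j)).ne'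
  chain l := (kk_ev hV.one_le hq (l + 1)).mono fun j hj => Wn_chain hV hj.1
  c := cc p q
  c_pos l := by
    have hp : (0 : ℝ) < p := Nat.cast_pos.2 hV.one_le
    have hq' : (0 : ℝ) < q := Nat.cast_pos.2 hq
    unfold cc; positivity
  c_anti l l' h := by
    have hp : (0 : ℝ) < p := Nat.cast_pos.2 hV.one_le
    have hq' : (0 : ℝ) < q := Nat.cast_pos.2 hq
    unfold cc; gcongr; norm_num
  pole := Wn_pole hV hq
  nondeg := by
    refine ⟨C.K₁ ∪ ⋃ s ∈ S, (fun y => s • y) '' C.K₁, C.isCompact_K₁.union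
      (hS.isCompact_biUnion fun s _ => C.isCompact_K₁.image (C.cont s)), fun l => ?_⟩
    filter_upwards [Wn_reiter hV hq l (1 / 2) (by norm_num)] with j hj
    obtain ⟨x, hx, h⟩ := (exists_max hV j).choose_spec.2.2
    have h0 : 0 < F0 V p (j + 1) x := h ▸ mu_pos hV j
    have h1 : ∀ γ : Γ, Fn hV j (γ • x) = 1 := fun γ => by
      rw [Fn, F0_inv hV j.succ_pos, show F0 V p (j + 1) x = mu hV j from h,
        div_self (mu_pos hV j).ne', Real.one_rpow]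
    have h2 : Fn hV j x = 1 := by simpa using h1 1
    obtain ⟨s, hs, h3⟩ := hg _ (mm_nonneg x) (mm_sum h0)
    refine ⟨s • x, Or.inr (mem_biUnion hs ⟨x, hx, rfl⟩), x, Or.inl hx, not_lt.1 fun h4 => ?_⟩
    have h5 := hj (s • x) x (by rw [h1]; norm_num) (by rw [h2]; norm_num)
      (by rw [h1, h2]; linarith)
    have h6 : ∀ g, mm V p (j + 1) (s • x) g = mm V p (j + 1) x (s⁻¹ * g) := fun g => by
      rw [← mm_eqv hV j.succ_pos s x, mul_inv_cancel_left]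
    simp only [h6] at h5
    have hq' : (0 : ℝ) < q := Nat.cast_pos.2 hq
    have h7 : (4 : ℝ) / (q * 4 ^ l) ≤ 4 / q :=
      div_le_div_of_nonneg_left (by norm_num) hq' (le_mul_of_one_le_right hq'.le
        (one_le_pow₀ (by norm_num)))
    linarith
  m j := mm V p (j + 1)
  m_nonneg j := mm_nonneg
  m_sum j y h := mm_sum ((Fn_pos hV).1 h)
  m_eqv j := mm_eqv hV j.succ_pos
  η l := 4 / (q * 4 ^ l)
  η_tend := tendsto_const_nhds.div_atTop ((tendsto_pow_atTop_atTop_of_one_lt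
    (by norm_num : (1 : ℝ) < 4)).const_mul_atTop (Nat.cast_pos.2 hq))
  reiter := Wn_reiter hV hq

/-- the function `Q` -/
def Qn (j : ℕ) (a : C.I) (z : Cm n) (ξ : Fin p → Cm n) : ℝ :=
  (Q0 V (j + 1) a z ξ / mu hV j) ^ bt p (j + 1)

theorem m_bt : ((m * rr p (j + 1) : ℕ) : ℝ) * bt p (j + 1) ≤ m * (1 / (j + 1 : ℝ)) := by
  push_cast; rw [mul_assoc, rr_bt]

theorem σ_nonneg {a : C.I} {z : Cm n} (hz : z ∈ C.B 4 a) : 0 ≤ P.σ (C.pt 1 a z) := by
  rw [P.σ_eq 1 a z hz]; positivity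

theorem Qn_le : ∃ (K : ℝ) (N : ℕ), 0 ≤ K ∧ ∀ j a, ∀ z ∈ C.B (7 / 2) a, ∀ ξ : Fin p → Cm n, ‖ξ‖ ≤ 1 →
    Qn hV j a z ξ * P.σ (C.pt 1 a z) ^ N ≤ K * Fn hV j (C.pt 1 a z) := by
  obtain ⟨K, N, hK, h⟩ := Q0_le hV
  refine ⟨K, N, hK, fun j a z hz ξ hξ => ?_⟩
  have h0 := pow_nonneg (σ_nonneg (P := P) (C.B_mono (by norm_num) a hz)) N
  have h1 := mu_pos hV j
  rw [← rt_pow (p := p) (j := j) h0, ← rt_pow (p := p) (j := j) hK, Qn, Fn,
    ← Real.mul_rpow (div_nonneg (Q0_nonneg _) h1.le) (by positivity),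
    ← Real.mul_rpow (by positivity) (div_nonneg (F0_nonneg _) h1.le), div_mul_eq_mul_div,
    ← mul_div_assoc]
  exact Real.rpow_le_rpow (div_nonneg (mul_nonneg (Q0_nonneg _) (by positivity)) h1.le)
    (div_le_div_of_nonneg_right (h _ j.succ_pos a z hz ξ hξ) h1.le) bt_nonneg

/-- the frame potentials -/
def lq (hq : 1 ≤ q) {S : Set Γ} (hS : S.Finite) (hg : ∀ μ : Γ → ℝ, (∀ g, 0 ≤ μ g) → HasSum μ 1 →
    ∃ s ∈ S, (4 : ℝ) / q < ∑' h, |μ (s⁻¹ * h) - μ h|) : LQ V p (ld hV hq hS hg) where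
  Q := Qn hV
  WQ l j x γ a z ξ := (WQ0 V (kk p q l (j + 1)) (j + 1) x γ a z ξ / (mu hV j * mu hV j)) ^ bt p (j + 1)
  δ j := m * (1 / (j + 1 : ℝ))
  δ_nonneg j := by positivity
  δ_tend := by simpa using tend_inv.const_mul (m : ℝ)
  τ j := 1 / (j + 1 : ℝ)
  τ_nonneg j := by positivity
  τ_tend := tend_inv
  Q_cont j a q hq := (((Q0_cd hq.1).continuousAt.div_const _).rpow_const
    (Or.inr bt_nonneg)).continuousWithinAt
  Q_psh j a := Q0_psh (mu_pos hV j) bt_nonneg m_bt a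
  Q_sm j a z hz ξ h := ((Q0_cd (q := (z, ξ)) hz).div_const _).rpow_const_of_ne
    (div_pos ((rt_pos bt_pos (Q0_nonneg _) (mu_pos hV j)).1 h) (mu_pos hV j)).ne'
  Q_ch j γ a b z h ξ := by rw [Qn, Q0_ch hV j.succ_pos h, Qn]
  Q_det j a z hz M ξ := by
    have h := Q0_det (V := V) (j := j + 1) hz M ξ
    have h1 : (‖M.det‖ ^ (2 * NN p (j + 1))) ^ bt p (j + 1) = ‖M.det‖ ^ (2 / (p + 1 : ℝ)) := by
      rw [← Real.rpow_natCast, ← Real.rpow_mul (norm_nonneg _)]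
      push_cast
      rw [mul_assoc, NN_bt, mul_one_div]
    rw [← h1, Qn, Qn, ← Real.mul_rpow (by positivity) (div_nonneg (Q0_nonneg _) (mu_pos hV j).le),
      ← mul_div_assoc, ← h]
    rfl
  Q_imm j a z hz ξ h := fam_im j.succ_pos hz
    (Q0_pos_iff.1 ((rt_pos bt_pos (Q0_nonneg _) (mu_pos hV j)).1 h))
  Q_bd := by
    obtain ⟨K, N, hK, h⟩ := Qn_le hV
    obtain ⟨K', h'⟩ := bd_of_le P N m K
    refine ⟨K', fun j a z hz ξ hξ => h' a (fun z => Qn hV j a z ξ) (m * (1 / (j + 1 : ℝ)))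
      (by positivity) (mul_le_of_le_one_right (Nat.cast_nonneg _) ?_)
      ((Q0_psh (mu_pos hV j) bt_nonneg m_bt a).left (mem_univ ξ))
      (fun w hw => (h j a w hw ξ hξ).trans (mul_le_of_le_one_right hK (Fn_le hV))) z hz⟩
    rw [div_le_one (by positivity)]; simp
  Q_le := by
    obtain ⟨K, N, -, h⟩ := Qn_le hV
    exact ⟨K, N, fun j a z hz => h j a z (C.B_mono (by norm_num) a hz)⟩
  δ_le j := le_rfl
  F_imm j a z hz h := by
    obtain ⟨I, h1, -⟩ := BB_eq hV j.succ_pos hz ((Fn_pos hV).1 h)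
    exact ⟨_, (rt_pos bt_pos (Q0_nonneg _) (mu_pos hV j)).2 (Q0_pos_iff.2 h1)⟩
  F_an j a z hz h := by
    obtain ⟨f, h1, h2, h3⟩ := F0_an hV j.succ_pos hz ((Fn_pos hV).1 h)
    exact ⟨f, h1, h2, fun w hw h4 => (Fn_pos hV).2 (h3 w hw h4)⟩
  le_Q a K hK h := by
    obtain ⟨κ, hκ, h1⟩ := le_Q0 hV a K hK h
    refine ⟨κ, hκ, fun j u hu => ?_⟩
    have h2 := mu_pos hV j
    show κ * Fn hV j _ ≤ _
    rw [← rt_pow (p := p) (j := j) hκ.le, Fn, Qn,
      ← Real.mul_rpow (by positivity) (div_nonneg (F0_nonneg _) h2.le), ← mul_div_assoc]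
    exact Real.rpow_le_rpow (div_nonneg (mul_nonneg (by positivity) (F0_nonneg _)) h2.le)
      (div_le_div_of_nonneg_right (h1 _ j.succ_pos u hu) h2.le) bt_nonneg
  Q_basic j γ a z ξ γ' b z' ξ' h := by
    have h0 : ∀ a z, 0 ≤ V.nm a z := fun a z => mul_nonneg (sq_nonneg _) (Real.exp_pos _).le
    have h2 := mu_pos hV j
    rw [← rt_r (p := p) (h0 _ _), ← rt_r (p := p) (h0 _ _), Qn, Qn,
      ← Real.mul_rpow (div_nonneg (Q0_nonneg _) h2.le) (pow_nonneg (h0 _ _) _),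
      ← Real.mul_rpow (div_nonneg (Q0_nonneg _) h2.le) (pow_nonneg (h0 _ _) _), div_mul_eq_mul_div,
      div_mul_eq_mul_div, Q0_basic hV j.succ_pos h]
  W_basic l j x γ a z ξ γ' b z' ξ' h := by
    show Wn hV q l j _ _ * Fn hV j _ = Wn hV q l j _ _ * Fn hV j _
    rw [Wn, Wn, Fn, Fn, rt_mul (W0_nonneg _ _) (F0_nonneg _) (mu2 hV j) (mu_pos hV j),
      rt_mul (W0_nonneg _ _) (F0_nonneg _) (mu2 hV j) (mu_pos hV j), W0_basic hV j.succ_pos h]
  WQ_cont l j x γ a q hq := (((WQ0_cd hq.1).continuousAt.div_const _).rpow_const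
    (Or.inr bt_nonneg)).continuousWithinAt
  WQ_eq l j x γ a z hz ξ := by
    show _ * Fn hV j _ = Wn hV q l j _ _ * _
    rw [Wn, Fn, Qn, rt_mul (WQ0_nonneg _) (F0_nonneg _) (mu2 hV j) (mu_pos hV j),
      rt_mul (W0_nonneg _ _) (Q0_nonneg _) (mu2 hV j) (mu_pos hV j), WQ0_eq hV j.succ_pos x hz]
  WQ_le l j x γ a z hz ξ := by
    have h2 := mu_pos hV j
    have h3 := Q0_nonneg (V := V) (j := j + 1) (a := a) (z := z) ξ
    show _ ≤ ep p j * _
    rw [ep, Qn, ← Real.mul_rpow (by positivity) (div_nonneg h3 h2.le), ← mul_div_assoc,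
      ← mul_div_mul_left (18 ^ _ * _) _ h2.ne']
    refine Real.rpow_le_rpow (div_nonneg (WQ0_nonneg _) (mu2 hV j).le)
      (div_le_div_of_nonneg_right ((WQ0_le x hz).trans ?_) (mu2 hV j).le) bt_nonneg
    rw [mul_left_comm (mu hV j)]
    exact mul_le_mul two_le (mul_le_mul_of_nonneg_right (le_mu hV j x) h3)
      (mul_nonneg (F0_nonneg _) h3) (by positivity)
  WQ_psh l j x γ a := WQ0_psh (mu2 hV j) bt_nonneg m_bt x γ a
  WQ_sm l j x γ a z hz ξ h := ((WQ0_cd (q := (z, ξ)) hz).div_const _).rpow_const_of_ne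
    (div_pos ((rt_pos bt_pos (WQ0_nonneg _) (mu2 hV j)).1 h) (mu2 hV j)).ne'

end Vale.Agent.P284Z.E

namespace Vale.Agent.P284Z

theorem stE : StE := by
  intro n Γ Y _ _ _ _ _ _ C P J m V p hV h
  obtain ⟨S, hS, ε, hε, hg⟩ := Am.gap h
  obtain ⟨q, hq⟩ := exists_nat_gt (4 / ε)
  have h0 : (0 : ℝ) < q := lt_trans (by positivity) hq
  have h1 : (4 : ℝ) / q < ε := by rwa [div_lt_iff₀ h0, mul_comm, ← div_lt_iff₀ hε]
  exact ⟨_, ⟨E.lq hV (Nat.cast_pos.1 h0) hS fun μ a b => (hg μ a b).imp fun s hs =>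
    ⟨hs.1, h1.trans hs.2⟩⟩⟩

end Vale.Agent.P284Z
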