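import Vale.Agent.P284Z.E.Reg

/-!
# P284Z, block E: comparison of `Q` and `F`
-/

set_option linter.all false

open scoped ContDiff Topology
open Filter Set Metric

noncomputable section

namespace Vale.Agent.P284Z.E

open Ang Vale.Agent.P272.K

variable {n : ℕ} {Γ E : Type} [Group Γ] [TopologicalSpace E] [MulAction Γ E] {C : Cov n Γ E}
  {P : Pol C} {J : IX Γ} {m p j k : ℕ} {γ γ' g : Γ} {a b : C.I} {z z' : Cm n} {x y : E}
  {V : HSec P J m} {ξ : Fin p → Cm n}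

/-- the comparison of the frames -/
def th (D : Cm n →L[ℂ] Cm p) (ξ : Fin p → Cm n) : ℂ := (Matrix.of fun k l => D (ξ k) l).det

theorem exists_th (hV : V.VD p) (hz : z ∈ C.B 4 a) (hi : V.Imm a z ξ) : ∃ D : Cm n →L[ℂ] Cm p,
    ‖th D ξ‖ = 1 ∧ ∀ j ξ', G (fam V j 1 a z ξ') = (‖th D ξ'‖ ^ 2) ^ NN p j * G (fam V j 1 a z ξ) := by
  have h1 := (LL_im V 1 hz).2 hi
  obtain ⟨D, hD⟩ := (fac_of (LL_an V 1 hz) (LL_rk hV 1 hz) h1).theta (LL_an V 1 hz)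
  have h2 : ∀ j ξ', G (fam V j 1 a z ξ') = (‖th D ξ'‖ ^ 2) ^ NN p j * G (fam V j 1 a z ξ) :=
    fun j ξ' => by
      obtain ⟨M, e1, e2⟩ := hD j ξ'
      rw [fam, e1, G_act, e2, norm_pow, ← pow_mul, mul_comm _ 2, pow_mul]; rfl
  refine ⟨D, ?_, h2⟩
  have h3 := h2 1 ξ
  rw [NN_one, pow_one, eq_comm, fam, mul_eq_right₀ (G_pos_iff.2 (li_of_im (LL_an V 1 hz) h1)).ne'] at h3
  exact (pow_eq_one_iff_of_nonneg (norm_nonneg _) two_ne_zero).1 h3

/-- the differential of the meromorphic coordinates -/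
def dx (P : Pol C) (a : C.I) (z : Cm n) : Cm n →L[ℂ] Cm n := fderiv ℂ (fun w => P.x (C.pt 1 a w)) z

theorem th_exp (hz : z ∈ C.B 4 a) (hs : P.s a z ≠ 0) (D : Cm n →L[ℂ] Cm p) (ξ : Fin p → Cm n) :
    (P.s a z ^ P.N) ^ p * th D ξ =
      ∑ I : Fin p → Fin n, (∏ k, dx P a z (ξ k) (I k)) * th D (xf P a z I) := by
  have h1 : ∀ k, P.s a z ^ P.N • D (ξ k) =
      ∑ i, dx P a z (ξ k) i • D (MM P a z (Pi.single i 1)) := fun k => by
    have h2 : P.s a z ^ P.N • ξ k = MM P a z (dx P a z (ξ k)) :=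
      dx_inj P hz hs (by rw [MM_eq P hz hs, map_smul]; rfl)
    have h3 : dx P a z (ξ k) = ∑ i, dx P a z (ξ k) i • (Pi.single i 1 : Cm n) := by
      funext l; simp [Pi.single_apply]
    rw [← map_smul, h2, h3]
    simp only [map_sum, map_smul]
    rw [← h3]
  have h2 := (Matrix.detRowAlternating (n := Fin p) (R := ℂ)).toMultilinearMap.map_smul_univ
    (fun _ => P.s a z ^ P.N) fun k => D (ξ k)
  rw [Finset.prod_const, Finset.card_univ, Fintype.card_fin] at h2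
  refine h2.symm.trans ?_
  simp only [h1]
  rw [MultilinearMap.map_sum]
  exact Finset.sum_congr rfl fun I _ => MultilinearMap.map_smul_univ _ _ _

theorem th_le (hz : z ∈ C.B 4 a) (hs : P.s a z ≠ 0) {D : Cm n →L[ℂ] Cm p} (h : ‖th D ξ‖ = 1) :
    ∃ I : Fin p → Fin n, (‖P.s a z‖ ^ P.N) ^ p ≤
      (n * (‖dx P a z‖ * ‖ξ‖)) ^ p * ‖th D (xf P a z I)‖ := by
  have h1 := congrArg norm (th_exp hz hs D ξ)
  rw [norm_mul, h, mul_one, norm_pow, norm_pow] at h1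
  have h2 : ∑ I : Fin p → Fin n, (∏ k, dx P a z (ξ k) (I k)) * th D (xf P a z I) ≠ 0 := by
    rw [← norm_ne_zero_iff, ← h1]; have := norm_pos_iff.2 hs; positivity
  obtain ⟨I₀, -, -⟩ := Finset.exists_ne_zero_of_sum_ne_zero h2
  haveI : Nonempty (Fin p → Fin n) := ⟨I₀⟩
  obtain ⟨I, hI⟩ := Finite.exists_max fun I : Fin p → Fin n => ‖th D (xf P a z I)‖
  refine ⟨I, h1.trans_le ((norm_sum_le _ _).trans ((Finset.sum_le_card_nsmul _ _
    ((‖dx P a z‖ * ‖ξ‖) ^ p * ‖th D (xf P a z I)‖) fun I' _ => ?_).trans_eq ?_))⟩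
  · rw [norm_mul, norm_prod]
    refine mul_le_mul ((Finset.prod_le_prod (g := fun _ => ‖dx P a z‖ * ‖ξ‖) (fun _ _ => norm_nonneg _)
      fun k _ => ?_).trans_eq (by simp [mul_pow])) (hI I') (norm_nonneg _) (by positivity)
    exact (norm_le_pi_norm _ _).trans ((dx P a z).le_of_opNorm_le_of_le le_rfl (norm_le_pi_norm ξ k))
  · simp [mul_pow, mul_assoc]

theorem dx_bd (P : Pol C) : ∃ B ≥ (0 : ℝ), ∀ a, ∀ z ∈ C.cB (7 / 2) a, ‖P.s a z‖ ≤ B ∧
    (P.s a z ≠ 0 → ‖P.s a z‖ ^ (P.N + 1) * ‖dx P a z‖ ≤ B) := by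
  have h : ∀ a, ∃ B, ∀ z ∈ C.cB (7 / 2) a, ‖P.s a z‖ ≤ B ∧
      (P.s a z ≠ 0 → ‖P.s a z‖ ^ (P.N + 1) * ‖dx P a z‖ ≤ B) := fun a => by
    obtain ⟨X, h1, h2⟩ := P.x_pole a
    have h0 := C.cB_sub_B (show (7 / 2 : ℝ) < 4 by norm_num) a
    obtain ⟨B, hB⟩ := (C.isCompact_cB (7 / 2) a).exists_bound_of_continuousOn
      (f := fun z => (P.s a z, P.s a z • fderiv ℂ X z - (P.N : ℂ) • (fderiv ℂ (P.s a) z).smulRight (X z)))
      fun z hz => ContinuousAt.continuousWithinAt (by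
        have e1 := (P.s_an a z (h0 hz)).continuousAt
        have e2 := (P.s_an a z (h0 hz)).fderiv.continuousAt
        have e3 := (h1 z (h0 hz)).continuousAt
        have e4 := (h1 z (h0 hz)).fderiv.continuousAt
        exact e1.prodMk ((e1.smul e4).sub ((isBoundedBilinearMap_smulRight.continuous.continuousAt.comp
          (e2.prodMk e3)).const_smul (P.N : ℂ))))
    refine ⟨B, fun z hz => ⟨(norm_fst_le _).trans (hB z hz), fun hs => le_trans (le_of_eq ?_)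
      ((norm_snd_le _).trans (hB z hz))⟩⟩
    have h3 : X =ᶠ[𝓝 z] fun w => P.s a w ^ P.N • P.x (C.pt 1 a w) := by
      filter_upwards [(C.isOpen_B 4 a).mem_nhds (h0 hz),
        (P.s_an a z (h0 hz)).continuousAt.eventually_ne hs] with w h3 h4 using h2 w h3 h4
    have h4 := (((P.s_an a z (h0 hz)).differentiableAt.hasFDerivAt.pow P.N).smul
      (x_an P (h0 hz) hs).differentiableAt.hasFDerivAt).fderiv
    rw [← norm_pow, ← norm_smul, h3.fderiv_eq, h2 z (h0 hz) hs]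
    congr 1
    erw [h4]
    ext v i
    rcases P.N with _ | N <;> simp [dx] <;> ring
  choose B hB using h
  have h1 : ∀ a, B a ≤ ∑ a, |B a| := fun a => (le_abs_self _).trans
    (Finset.single_le_sum (f := fun a => |B a|) (fun _ _ => abs_nonneg _) (Finset.mem_univ a))
  exact ⟨_, Finset.sum_nonneg fun _ _ => abs_nonneg _, fun a z hz =>
    ⟨(hB a z hz).1.trans (h1 a), fun hs => ((hB a z hz).2 hs).trans (h1 a)⟩⟩

theorem num {c X : ℝ} (hc : 0 ≤ c) (hX : 0 ≤ X) (hj : 1 ≤ j) :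
    c * X ^ NN p j ≤ ((1 + c) * (1 + X)) ^ (j * rr p j) := by
  have h1 := NN_eq (p := p) (j := j)
  have h2 : NN p j ≠ 0 := fun h => by
    rw [h, mul_zero] at h1
    exact mul_ne_zero (Nat.one_le_iff_ne_zero.1 hj) rr_pos.ne' h1.symm
  refine le_trans ?_ (pow_le_pow_right₀ (by nlinarith [mul_nonneg hc hX])
    (show NN p j ≤ j * rr p j by rw [← h1]; nlinarith))
  rw [mul_pow]
  exact mul_le_mul ((by linarith : c ≤ 1 + c).trans (le_self_pow₀ (by linarith) h2))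
    (pow_le_pow_left₀ hX (by linarith) _) (by positivity) (by positivity)

theorem F0_eq' (hV : V.VD p) (hj : 1 ≤ j) (hz : z ∈ C.B 4 a) : F0 V p j (C.pt 1 a z) =
    (∑ I : Fin p → Fin n, G (fam V j 1 a z (xf P a z I))) * Real.exp (-((m * rr p j : ℕ) * C.ρ a z)) *
      Real.exp (-(P.N * p * C.ρ a z)) ^ NN p j := by
  rw [F0_eq hV hj 1 hz, mul_assoc, ← Real.exp_nat_mul, ← Real.exp_add, wt, ex]
  congr 2; push_cast; ring

theorem Q0_le (hV : V.VD p) : ∃ (K : ℝ) (N : ℕ), 0 ≤ K ∧ ∀ j, 1 ≤ j → ∀ a, ∀ z ∈ C.B (7/2) a,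
    ∀ ξ : Fin p → Cm n, ‖ξ‖ ≤ 1 → Q0 V j a z ξ * (P.σ (C.pt 1 a z) ^ N) ^ (j * rr p j) ≤
      K ^ (j * rr p j) * F0 V p j (C.pt 1 a z) := by
  obtain ⟨B, hB, hb⟩ := dx_bd P
  obtain ⟨M, hM, hρ⟩ := ρ_bdd C
  set X := ((n * B) ^ p) ^ 2 * (B ^ (2 * P.N + 1)) ^ 2 *
    Real.exp (M * ((2 * P.N + 1) * (p + 1) + P.N * p)) with hX
  refine ⟨(1 + 1) * (1 + X), 2 * P.N + 1, by positivity, fun j hj a z hz ξ hξ => ?_⟩
  have hz4 : z ∈ C.B 4 a := C.B_mono (by norm_num) a hz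
  have h0 : 0 ≤ ((1 + 1) * (1 + X)) ^ (j * rr p j) * F0 V p j (C.pt 1 a z) :=
    mul_nonneg (by positivity) (F0_nonneg _)
  by_cases hs : P.s a z = 0
  · rwa [P.σ_eq 1 a z hz4, hs, norm_zero, zero_pow two_ne_zero, zero_mul, zero_pow (by omega),
      zero_pow (mul_ne_zero (by omega) rr_pos.ne'), mul_zero]
  rcases (G_nonneg (fam V j 1 a z ξ)).eq_or_lt with hG | hG
  · rwa [Q0, ← hG, zero_mul, zero_mul]
  obtain ⟨D, h1, h2⟩ := exists_th hV hz4 (fam_im hj hz4 hG)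
  obtain ⟨I, h3⟩ := th_le hz4 hs h1
  obtain ⟨h4, h5⟩ := hb a z (C.B_sub_cB _ a hz)
  have h6 := abs_le.1 (hρ a z (C.B_sub_cB _ a hz))
  have h7 : (‖P.s a z‖ ^ (2 * P.N + 1)) ^ p ≤ (n * B) ^ p * ‖th D (xf P a z I)‖ := by
    calc _ = (‖P.s a z‖ ^ (P.N + 1)) ^ p * (‖P.s a z‖ ^ P.N) ^ p := by ring
      _ ≤ _ := mul_le_mul_of_nonneg_left h3 (by positivity)
      _ = (n * (‖P.s a z‖ ^ (P.N + 1) * ‖dx P a z‖ * ‖ξ‖)) ^ p * ‖th D (xf P a z I)‖ := by ring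
      _ ≤ _ := by
        gcongr
        exact (mul_le_of_le_one_right (by positivity) hξ).trans (h5 hs)
  have h8 : (P.σ (C.pt 1 a z) ^ (2 * P.N + 1)) ^ (p + 1) ≤
      X * (‖th D (xf P a z I)‖ ^ 2 * Real.exp (-(P.N * p * C.ρ a z))) := by
    calc _ = ((‖P.s a z‖ ^ (2 * P.N + 1)) ^ p) ^ 2 * (‖P.s a z‖ ^ (2 * P.N + 1)) ^ 2 *
          Real.exp (((2 * P.N + 1) * (p + 1) : ℕ) * -C.ρ a z) := by
          rw [P.σ_eq 1 a z hz4, Real.exp_nat_mul]; ring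
      _ ≤ ((n * B) ^ p * ‖th D (xf P a z I)‖) ^ 2 * (B ^ (2 * P.N + 1)) ^ 2 *
          Real.exp (M * ((2 * P.N + 1) * (p + 1) + P.N * p) + -(P.N * p * C.ρ a z)) := by
          gcongr
          push_cast
          nlinarith [mul_le_mul_of_nonneg_left h6.2 (show (0 : ℝ) ≤ P.N * p by positivity),
            mul_le_mul_of_nonneg_left h6.1 (show (0 : ℝ) ≤ (2 * P.N + 1) * (p + 1) by positivity)]
      _ = _ := by rw [Real.exp_add, hX]; ring
  have h9 := pow_le_pow_left₀ (pow_nonneg (pow_nonneg (σ_pos P hz4 1 hs).le _) _) h8 (NN p j)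
  have h10 := num (p := p) zero_le_one (show 0 ≤ X by positivity) hj
  rw [← pow_mul, NN_eq] at h9
  rw [F0_eq' hV hj hz4, Q0]
  calc _ ≤ _ := mul_le_mul_of_nonneg_left h9 (by positivity)
    _ = 1 * X ^ NN p j * (G (fam V j 1 a z (xf P a z I)) * Real.exp (-((m * rr p j : ℕ) * C.ρ a z)) *
        Real.exp (-(P.N * p * C.ρ a z)) ^ NN p j) := by rw [h2 j (xf P a z I)]; ring
    _ ≤ _ := by
      have := G_nonneg (fam V j 1 a z (xf P a z I))
      gcongr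
      exact Finset.single_le_sum (f := fun I => G (fam V j 1 a z (xf P a z I)))
        (fun _ _ => G_nonneg _) (Finset.mem_univ I)

theorem le_Q0 (hV : V.VD p) (a : C.I) (K : Set (Cm n × (Fin p → Cm n))) (hK : IsCompact K)
    (h : ∀ q ∈ K, q.1 ∈ C.B 4 a ∧ V.Imm a q.1 q.2) : ∃ κ > (0:ℝ), ∀ j, 1 ≤ j → ∀ q ∈ K,
      κ ^ (j * rr p j) * F0 V p j (C.pt 1 a q.1) ≤ Q0 V j a q.1 q.2 := by
  have h0 : ∀ q ∈ K, 0 < G (fam V 1 1 a q.1 q.2) := fun q hq =>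
    G_pos_iff.2 (li_of_im (LL_an V 1 (h q hq).1) ((LL_im V 1 (h q hq).1).2 (h q hq).2))
  obtain ⟨B, hB⟩ := hK.exists_bound_of_continuousOn (f := fun q => (∑ I : Fin p → Fin n,
    G (fam V 1 1 a q.1 (xf P a q.1 I))) / G (fam V 1 1 a q.1 q.2) * Real.exp (-(P.N * p * C.ρ a q.1)))
    fun q hq => ContinuousAt.continuousWithinAt (by
      have e1 : ∀ I : Fin p → Fin n, ContinuousAt
          (fun q : Cm n × (Fin p → Cm n) => G (fam V 1 1 a q.1 (xf P a q.1 I))) q := fun I =>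
        continuous_G.continuousAt.comp (continuousAt_pi.2 fun α =>
          (famx_an 1 (h q hq).1 I α).continuousAt.comp continuousAt_fst)
      exact ((tendsto_finset_sum _ fun I _ => e1 I).div (continuous_G.continuousAt.comp
        (continuousAt_pi.2 fun α => (famq_an 1 (h q hq).1 α).continuousAt)) (h0 q hq).ne').mul
        ((exp_cd (h q hq).1 _).continuousAt.comp continuousAt_fst))
  have h1 : 0 < (1 + (n : ℝ) ^ p) * (1 + |B|) := by positivity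
  refine ⟨_, inv_pos.2 h1, fun j hj q hq => ?_⟩
  obtain ⟨D, -, h2⟩ := exists_th hV (h q hq).1 (h q hq).2
  rw [inv_pow, inv_mul_le_iff₀ (by positivity), F0_eq' hV hj (h q hq).1, Q0]
  refine le_trans ?_ (mul_le_mul_of_nonneg_right (num (by positivity) (abs_nonneg B) hj)
    (Q0_nonneg q.2))
  rw [mul_right_comm, ← mul_assoc, Finset.sum_mul]
  refine mul_le_mul_of_nonneg_right ((Finset.sum_le_card_nsmul _ _
    (|B| ^ NN p j * G (fam V j 1 a q.1 q.2)) fun I _ => ?_).trans_eq (by simp [mul_assoc]))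
    (Real.exp_pos _).le
  rw [h2, mul_right_comm, ← mul_pow]
  refine mul_le_mul_of_nonneg_right (pow_le_pow_left₀ (by positivity) (le_trans ?_
    ((le_abs_self _).trans ((hB q hq).trans (le_abs_self B)))) _) (G_nonneg _)
  refine mul_le_mul_of_nonneg_right ?_ (Real.exp_pos _).le
  have h3 := h2 1 (xf P a q.1 I)
  rw [NN_one, pow_one] at h3
  rw [le_div_iff₀ (h0 q hq), ← h3]
  exact Finset.single_le_sum (f := fun I => G (fam V 1 1 a q.1 (xf P a q.1 I)))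
    (fun _ _ => G_nonneg _) (Finset.mem_univ I)

theorem F0_pos (hV : V.VD p) (hj : 1 ≤ j) : ∃ y, 0 < F0 V p j y := by
  obtain ⟨a, z, hz, ξ, h⟩ := hV.jets j
  have h0 : 0 < G (fam V j 1 a z ξ) := by rw [fam_eq V 1 hz, G_map]; exact G_pos_iff.2 h
  have h1 : ContinuousAt (fun w => G (fam V j 1 a w ξ)) z := continuous_G.continuousAt.comp
    (continuousAt_pi.2 fun α => (fam_an V (ξ := fun _ => ξ) 1 hz analyticAt_id
      (fun _ => analyticAt_const) α).continuousAt)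
  obtain ⟨w, hs, h2, hw⟩ := ((s_freq P hz).and_eventually ((h1.eventually (lt_mem_nhds h0)).and
    ((C.isOpen_B 4 a).eventually_mem hz))).exists
  obtain ⟨D, h3, h4⟩ := exists_th hV hw (fam_im hj hw h2)
  obtain ⟨I, h5⟩ := th_le hw hs h3
  have h6 : 0 < ‖th D (xf P a w I)‖ := (norm_nonneg _).lt_of_ne fun e => by
    rw [← e, mul_zero] at h5
    exact h5.not_gt (pow_pos (pow_pos (norm_pos_iff.2 hs) _) _)
  refine ⟨C.pt 1 a w, ?_⟩
  rw [F0_eq hV hj 1 hw]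
  exact mul_pos (Finset.sum_pos' (fun _ _ => G_nonneg _) ⟨I, Finset.mem_univ I, by
    rw [h4]; positivity⟩) wt_pos

theorem circ (P : Pol C) (hz : z ∈ C.cB 3 a) : ∃ w : Cm n, ∃ c > (0 : ℝ), ∀ᶠ u in 𝓝 z,
    (∀ ζ : ℂ, ‖ζ‖ ≤ 1 → u + ζ • w ∈ C.B (7 / 2) a) ∧ ∀ ζ ∈ sphere (0 : ℂ) 1, c < ‖P.s a (u + ζ • w)‖ := by
  have hr := C.r_pos a
  have h0 : closedBall z (C.r a / 4) ⊆ C.B (7 / 2) a := C.closedBall_sub hz (by linarith)
  have h4 := h0.trans (C.B_mono (show (7 / 2 : ℝ) ≤ 4 by norm_num) a)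
  obtain ⟨v, h1, h2⟩ := ((s_freq P (h4 (mem_closedBall_self (by positivity)))).and_eventually
    (ball_mem_nhds z (show 0 < C.r a / 8 by positivity))).exists
  have h3 : ∀ (u : Cm n) (ζ : ℂ), ‖u - z‖ ≤ C.r a / 8 → ‖ζ‖ ≤ 1 →
      u + ζ • (v - z) ∈ closedBall z (C.r a / 4) := fun u ζ hu hζ => by
    rw [mem_closedBall_iff_norm, add_sub_right_comm]
    refine (norm_add_le _ _).trans ?_
    rw [norm_smul]
    nlinarith [mem_ball_iff_norm.1 h2, norm_nonneg (v - z)]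
  have h5 : AnalyticOnNhd ℂ (fun ζ : ℂ => P.s a (z + ζ • (v - z))) (closedBall 0 1) := fun ζ hζ =>
    (P.s_an a _ (h4 (h3 z ζ (by simp; positivity) (by simpa using hζ)))).comp
      (f := fun ζ : ℂ => z + ζ • (v - z)) (by fun_prop)
  have h6 := ((h5 0 (by simp)).eventually_eq_zero_or_eventually_ne_zero).resolve_left fun h => h1 (by
    simpa using h5.eqOn_zero_of_preconnected_of_eventuallyEq_zero (convex_closedBall _ _).isPreconnected
      (by simp) h (show (1 : ℂ) ∈ closedBall 0 1 by simp))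
  obtain ⟨ε, hε, h7⟩ := Metric.eventually_nhds_iff.1 (eventually_nhdsWithin_iff.1 h6)
  set t : ℝ := min (ε / 2) 1 with ht
  have ht0 : 0 < t := by positivity
  have h8 : ∀ ζ : ℂ, ‖ζ * t‖ = ‖ζ‖ * t := fun ζ => by
    rw [norm_mul, Complex.norm_real, Real.norm_of_nonneg ht0.le]
  have h9 : ∀ (u : Cm n) (ζ : ℂ), ‖u - z‖ ≤ C.r a / 8 → ‖ζ‖ ≤ 1 →
      u + ζ • (t : ℂ) • (v - z) ∈ closedBall z (C.r a / 4) := fun u ζ hu hζ => by
    rw [smul_smul]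
    exact h3 u _ hu (h8 ζ ▸ mul_le_one₀ hζ ht0.le (min_le_right _ _))
  have h10 : ∀ ζ ∈ sphere (0 : ℂ) 1, ContinuousAt
      (fun q : Cm n × ℂ => ‖P.s a (q.1 + q.2 • (t : ℂ) • (v - z))‖) (z, ζ) := fun ζ hζ =>
    ((P.s_an a _ (h4 (h9 z ζ (by simp; positivity) (by simpa using le_of_eq hζ)))).continuousAt.comp
      (f := fun q : Cm n × ℂ => q.1 + q.2 • (t : ℂ) • (v - z)) (by fun_prop)).norm
  obtain ⟨c, hc, h11⟩ := (isCompact_sphere (0 : ℂ) 1).exists_forall_le' (a := 0)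
    (f := fun ζ => ‖P.s a (z + ζ • (t : ℂ) • (v - z))‖) (fun ζ hζ => ((h10 ζ hζ).comp
      (f := fun ζ : ℂ => (z, ζ)) (by fun_prop)).continuousWithinAt) fun ζ hζ => by
      have e : ‖ζ * t‖ = t := by rw [h8, mem_sphere_zero_iff_norm.1 hζ, one_mul]
      rw [smul_smul]
      refine norm_pos_iff.2 (h7 ?_ fun h => ht0.ne' ?_)
      · rw [dist_zero_right, e]; exact (min_le_left _ _).trans_lt (half_lt_self hε)
      · rw [← e, mem_singleton_iff.1 h, norm_zero]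
  refine ⟨(t : ℂ) • (v - z), c / 2, half_pos hc, .and ?_ ((isCompact_sphere _ _).eventually_forall_of_forall_eventually
    fun ζ hζ => (h10 ζ hζ).eventually (lt_mem_nhds ((half_lt_self hc).trans_le (h11 ζ hζ))))⟩
  filter_upwards [closedBall_mem_nhds z (show 0 < C.r a / 8 by positivity)] with u hu ζ hζ
  exact h0 (h9 u ζ (mem_closedBall_iff_norm.1 hu) hζ)

theorem bd_of_le (P : Pol C) (N : ℕ) (A K : ℝ) : ∃ K' : ℝ, ∀ a (f : Cm n → ℝ) (δ : ℝ), 0 ≤ δ →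
    δ ≤ A → LPsh (fun z => f z * Real.exp (δ * C.ρ a z)) (C.B 4 a) →
    (∀ z ∈ C.B (7/2) a, f z * P.σ (C.pt 1 a z) ^ N ≤ K) → ∀ z ∈ C.B 3 a, f z ≤ K' := by
  obtain ⟨M, hM, hρ⟩ := ρ_bdd C
  have h : ∀ a, ∃ c > (0 : ℝ), ∀ u ∈ C.cB 3 a, ∃ w : Cm n, (∀ ζ : ℂ, ‖ζ‖ ≤ 1 →
      u + ζ • w ∈ C.B (7 / 2) a) ∧ ∀ ζ ∈ sphere (0 : ℂ) 1, c < ‖P.s a (u + ζ • w)‖ := fun a => by
    refine (C.isCompact_cB 3 a).induction_on (p := fun S => ∃ c > (0 : ℝ), ∀ u ∈ S, ∃ w : Cm n,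
      (∀ ζ : ℂ, ‖ζ‖ ≤ 1 → u + ζ • w ∈ C.B (7 / 2) a) ∧
      ∀ ζ ∈ sphere (0 : ℂ) 1, c < ‖P.s a (u + ζ • w)‖) ⟨1, one_pos, by simp⟩
      (fun S T hS ⟨c, hc, h⟩ => ⟨c, hc, fun u hu => h u (hS hu)⟩)
      (fun S T ⟨c, hc, h⟩ ⟨c', hc', h'⟩ => ⟨min c c', lt_min hc hc', fun u hu => hu.elim
        (fun hu => (h u hu).imp fun w hw => ⟨hw.1, fun ζ hζ => (min_le_left _ _).trans_lt (hw.2 ζ hζ)⟩)
        fun hu => (h' u hu).imp fun w hw => ⟨hw.1, fun ζ hζ => (min_le_right _ _).trans_lt (hw.2 ζ hζ)⟩⟩)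
      fun z hz => ?_
    obtain ⟨w, c, hc, h⟩ := circ P hz
    exact ⟨_, mem_nhdsWithin_of_mem_nhds h, c, hc, fun u hu => ⟨w, hu⟩⟩
  choose c hc h using h
  set Y := fun a => |K| / (c a ^ 2 * Real.exp (-M)) ^ N * Real.exp (A * M) * Real.exp (A * M) with hY
  refine ⟨∑ a, Y a, fun a f δ h0 h1 hf h2 z hz => le_trans ?_ (Finset.single_le_sum (f := Y)
    (fun a _ => by have := hc a; positivity) (Finset.mem_univ a))⟩
  obtain ⟨w, h3, h4⟩ := h a z (C.B_sub_cB 3 a hz)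
  have h5 := C.B_mono (show (7 / 2 : ℝ) ≤ 4 by norm_num) a
  have h6 : ∀ u ∈ C.B (7 / 2) a, |δ * C.ρ a u| ≤ A * M := fun u hu => by
    rw [abs_mul, abs_of_nonneg h0]
    exact mul_le_mul h1 (hρ a u (C.B_sub_cB _ a hu)) (abs_nonneg _) (h0.trans h1)
  have h7 := (hf.psh.2 z w fun ζ hζ => h5 (h3 ζ hζ)).trans (Real.circleAverage_mono_on_of_le_circle
    (a := |K| / (c a ^ 2 * Real.exp (-M)) ^ N * Real.exp (A * M))
    (line_int₁ hf.usc hf.lb fun ζ hζ => h5 (h3 ζ hζ)) fun ζ hζ => ?_)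
  · rw [← le_div_iff₀ (Real.exp_pos _), div_eq_mul_inv, ← Real.exp_neg] at h7
    exact h7.trans (mul_le_mul_of_nonneg_left (Real.exp_le_exp.2 ((neg_le_abs _).trans
      (h6 z (C.B_mono (by norm_num) a hz)))) (by have := hc a; positivity))
  rw [abs_one] at hζ
  have h8 := h3 ζ (mem_sphere_zero_iff_norm.1 hζ).le
  have h9 := hc a
  refine mul_le_mul ?_ (Real.exp_le_exp.2 ((le_abs_self _).trans (h6 _ h8))) (Real.exp_pos _).le
    (by positivity)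
  rw [le_div_iff₀ (by positivity)]
  refine le_trans (mul_le_mul_of_nonneg_left (pow_le_pow_left₀ (by positivity) ?_ N)
    (nonneg_of_mul_nonneg_left (hf.1 _ (h5 h8)) (Real.exp_pos _))) ((h2 _ h8).trans (le_abs_self K))
  rw [P.σ_eq 1 a _ (h5 h8)]
  exact mul_le_mul (pow_le_pow_left₀ h9.le (h4 ζ hζ).le 2) (Real.exp_le_exp.2 (neg_le_neg
    ((le_abs_self _).trans (hρ a _ (C.B_sub_cB _ a h8))))) (Real.exp_pos _).le (by positivity)

end Vale.Agent.P284Z.E
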