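import Vale.Agent.P284Z.E.Ch
import Vale.Agent.P284Z.R.Amen

/-!
# P284Z, block E: algebraic properties of the level `j` functions
-/

set_option linter.all false

open scoped ContDiff Topology
open Filter Set Metric

noncomputable section

namespace Vale.Agent.P284Z.E

open Ang Vale.Agent.P272.K

variable {n : ℕ} {Γ E : Type} [Group Γ] [TopologicalSpace E] [MulAction Γ E] {C : Cov n Γ E}
  {P : Pol C} {J : IX Γ} {m p j k : ℕ} {γ γ' g : Γ} {a b : C.I} {z z' : Cm n} {x y : E}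
  {V : HSec P J m} {ξ ξ' : Fin p → Cm n}

theorem wt_pos : 0 < wt P m p j a z := Real.exp_pos _

theorem F0_inv (hV : V.VD p) (hj : 1 ≤ j) (γ : Γ) (y : E) : F0 V p j (γ • y) = F0 V p j y := by
  obtain ⟨⟨g, a, z⟩, hz, rfl⟩ := exists_rep C y
  rw [C.smul_pt, F0_eq hV hj _ hz, F0_eq hV hj _ hz]

theorem W0_inv (hV : V.VD p) (hj : 1 ≤ j) (γ : Γ) (x y : E) :
    W0 V p k j (γ • x) (γ • y) = W0 V p k j x y := by
  obtain ⟨⟨g, a, z⟩, hz, rfl⟩ := exists_rep C x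
  obtain ⟨⟨g', b, z'⟩, hz', rfl⟩ := exists_rep C y
  rw [C.smul_pt, C.smul_pt, W0_eq hV hj _ _ hz hz', W0_eq hV hj _ _ hz hz']
  simp only [fam_mul V γ _ hz, fam_mul V γ _ hz', Om_map]

theorem W0_symm (x y : E) : W0 V p k j x y = W0 V p k j y x := by
  rw [W0, Finset.sum_comm]
  exact Finset.sum_congr rfl fun _ _ => Finset.sum_congr rfl fun _ _ => Om_symm _ _ _

open Classical in
/-- a basis of the space of the jets at `y` -/
def BB (V : HSec P J m) (p j : ℕ) (y : E) : Idx p j → J.H :=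
  if h : ∃ I : Fin p → Fin n, 0 < G (AA V j y I) then AA V j y h.choose else 0

theorem F0_pos_iff : 0 < F0 V p j y ↔ ∃ I : Fin p → Fin n, 0 < G (AA V j y I) := by
  rw [F0, Finset.sum_pos_iff_of_nonneg fun _ _ => G_nonneg _]; simp

theorem BB_spec (h : 0 < F0 V p j y) :
    ∃ I : Fin p → Fin n, 0 < G (AA V j y I) ∧ BB V p j y = AA V j y I :=
  ⟨_, (F0_pos_iff.1 h).choose_spec, dif_pos (F0_pos_iff.1 h)⟩

theorem BB_pos (h : 0 < F0 V p j y) : 0 < G (BB V p j y) := by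
  obtain ⟨I, h1, h2⟩ := BB_spec h
  rwa [h2]

theorem fam_im (hj : 1 ≤ j) (hz : z ∈ C.B 4 a) (h : 0 < G (fam V j γ a z ξ)) : V.Imm a z ξ :=
  (LL_im V γ hz).1 (im_of_li (LL_an V γ hz) hj (G_pos_iff.1 h))

theorem fam_le (hV : V.VD p) (hz : z ∈ C.B 4 a) (h : V.Imm a z ξ) (γ : Γ) (ξ' : Fin p → Cm n) :
    sp (fam V j γ a z ξ') ≤ sp (fam V j γ a z ξ) :=
  sp_le_of_li (LL_an V γ hz) (LL_rk hV γ hz) ((LL_im V γ hz).2 h) ξ'

theorem BB_eq (hV : V.VD p) (hj : 1 ≤ j) (hz : z ∈ C.B 4 a) (h : 0 < F0 V p j (C.pt γ a z)) :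
    ∃ I : Fin p → Fin n, 0 < G (fam V j γ a z (xf P a z I)) ∧
      sp (BB V p j (C.pt γ a z)) = sp (fam V j γ a z (xf P a z I)) := by
  obtain ⟨I, h1, h2⟩ := BB_spec h
  have h3 := rel_A hV hj γ hz I
  have h4 : 0 < G (fam V j γ a z (xf P a z I)) := by
    rw [h3.1] at h1; exact (pos_iff_pos_of_mul_pos h1).1 wt_pos
  exact ⟨I, h4, h2 ▸ h3.sp_eq wt_pos h4⟩

theorem BB_ge (hV : V.VD p) (hj : 1 ≤ j) (hz : z ∈ C.B 4 a) (h : 0 < F0 V p j (C.pt γ a z))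
    (ξ : Fin p → Cm n) : sp (fam V j γ a z ξ) ≤ sp (BB V p j (C.pt γ a z)) := by
  obtain ⟨I, h1, h2⟩ := BB_eq hV hj hz h
  rw [h2]; exact fam_le hV hz (fam_im hj hz h1) γ ξ

theorem BB_imm (hV : V.VD p) (hj : 1 ≤ j) (hz : z ∈ C.B 4 a) (h : 0 < F0 V p j (C.pt γ a z))
    (hi : V.Imm a z ξ) : 0 < G (fam V j γ a z ξ) ∧
      sp (fam V j γ a z ξ) = sp (BB V p j (C.pt γ a z)) := by
  obtain ⟨I, h1, h2⟩ := BB_eq hV hj hz h
  have h3 := li_of_sp_le (G_pos_iff.1 h1) (fam_le hV hz hi γ _)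
  exact ⟨G_pos_iff.2 h3, sp_eq_of_le h3 (BB_ge hV hj hz h ξ)⟩

theorem sumA (hV : V.VD p) (hj : 1 ≤ j) (y : E) (X : Idx p j → J.H) :
    ∑ I : Fin p → Fin n, Om k (AA V j y I) X = Om k (BB V p j y) X / G (BB V p j y) * F0 V p j y := by
  rcases (F0_nonneg (V := V) (p := p) (j := j) y).eq_or_lt with h | h
  · rw [← h, mul_zero]
    exact Finset.sum_eq_zero fun I _ => Om_eq_zero
      ((Finset.sum_eq_zero_iff_of_nonneg fun _ _ => G_nonneg _).1 h.symm I (Finset.mem_univ _)) k X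
  · rw [F0, Finset.mul_sum]
    refine Finset.sum_congr rfl fun I _ => ?_
    obtain ⟨⟨g, a, z⟩, hz, rfl⟩ := exists_rep C y
    have h1 := rel_A hV hj g hz I
    rw [div_mul_eq_mul_div, eq_div_iff (BB_pos h).ne', h1.om, h1.1, mul_assoc,
      Om_sp_left k (BB_ge hV hj hz h _)]
    ring

/-- the symmetric function of the angles -/
def ee (V : HSec P J m) (p k j : ℕ) (x y : E) : ℝ :=
  Om k (BB V p j x) (BB V p j y) / (G (BB V p j x) * G (BB V p j y))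

theorem W0_ee (hV : V.VD p) (hj : 1 ≤ j) (x y : E) :
    W0 V p k j x y = ee V p k j x y * (F0 V p j x * F0 V p j y) := by
  rw [W0, Finset.sum_comm]
  simp only [sumA hV hj, Om_symm k (BB V p j x), ← Finset.sum_mul, ← Finset.sum_div, ee]
  ring

theorem ee_nonneg : 0 ≤ ee V p k j x y :=
  div_nonneg (Om_nonneg _ _ _) (mul_nonneg (G_nonneg _) (G_nonneg _))

theorem W0_le (x y : E) : W0 V p k j x y ≤ 2 ^ rr p j * (F0 V p j x * F0 V p j y) := by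
  rw [F0, F0, Finset.sum_mul_sum, Finset.mul_sum]
  refine Finset.sum_le_sum fun I _ => ?_
  rw [Finset.mul_sum]
  exact Finset.sum_le_sum fun I' _ => Om_le _ _ _

theorem W0_chain (hV : V.VD p) (hj : 1 ≤ j) {k k' : ℕ} (hk : 1 ≤ k) (h : 4 * k ≤ k')
    (x₁ x₂ x₃ x₄ : E) : W0 V p k' j x₁ x₄ * (F0 V p j x₂ * F0 V p j x₃) ≤ 18 ^ rr p j *
      max (W0 V p k j x₁ x₂ * (F0 V p j x₃ * F0 V p j x₄))
        (max (W0 V p k j x₂ x₃ * (F0 V p j x₁ * F0 V p j x₄))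
          (W0 V p k j x₃ x₄ * (F0 V p j x₁ * F0 V p j x₂))) := by
  set f := F0 V p j x₁ * F0 V p j x₂ * F0 V p j x₃ * F0 V p j x₄ with hf
  have h0 : 0 ≤ f := mul_nonneg (mul_nonneg (mul_nonneg (F0_nonneg _) (F0_nonneg _)) (F0_nonneg _))
    (F0_nonneg _)
  have e : ∀ (c₁ c₂ c₃ c₄ g₁ g₂ g₃ g₄ : ℝ), 0 ≤ g₁ * g₂ * g₃ * g₄ →
      c₁ * (g₁ * g₄) * (g₂ * g₃) = c₁ * (g₁ * g₂ * g₃ * g₄) ∧
      max (c₂ * (g₁ * g₂) * (g₃ * g₄)) (max (c₃ * (g₂ * g₃) * (g₁ * g₄)) (c₄ * (g₃ * g₄) * (g₁ * g₂))) =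
        max c₂ (max c₃ c₄) * (g₁ * g₂ * g₃ * g₄) := fun c₁ c₂ c₃ c₄ g₁ g₂ g₃ g₄ h => by
    rw [max_mul_of_nonneg _ _ h, max_mul_of_nonneg _ _ h]
    refine ⟨by ring, ?_⟩
    congr 1
    · ring
    · congr 1 <;> ring
  simp only [W0_ee hV hj]
  obtain ⟨e1, e2⟩ := e (ee V p k' j x₁ x₄) (ee V p k j x₁ x₂) (ee V p k j x₂ x₃) (ee V p k j x₃ x₄)
    _ _ _ _ h0
  rw [e1, e2, ← hf, ← mul_assoc (18 ^ _)]
  rcases h0.eq_or_lt with h1 | h1
  · rw [← h1, mul_zero, mul_zero]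
  refine mul_le_mul_of_nonneg_right ?_ h0
  have hp : ∀ x : E, F0 V p j x ≠ 0 → 0 < G (BB V p j x) := fun x hx =>
    BB_pos ((F0_nonneg x).lt_of_ne hx.symm)
  have h1' := h1.ne'
  simp only [hf, mul_ne_zero_iff] at h1'
  obtain ⟨⟨⟨h1, h2⟩, h3⟩, h4⟩ := h1'
  have g1 := hp _ h1
  have g2 := hp _ h2
  have g3 := hp _ h3
  have g4 := hp _ h4
  have h5 := Om_chain hk h (BB V p j x₁) (BB V p j x₂) (BB V p j x₃) (BB V p j x₄)
  have h6 : ∀ k x y, 0 < G (BB V p j x) → 0 < G (BB V p j y) → Om k (BB V p j x) (BB V p j y) =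
      ee V p k j x y * (G (BB V p j x) * G (BB V p j y)) := fun k x y hx hy =>
    (div_mul_cancel₀ _ (mul_pos hx hy).ne').symm
  obtain ⟨e3, e4⟩ := e (ee V p k' j x₁ x₄) (ee V p k j x₁ x₂) (ee V p k j x₂ x₃) (ee V p k j x₃ x₄)
    _ _ _ _ (mul_pos (mul_pos (mul_pos g1 g2) g3) g4).le
  rw [h6 _ _ _ g1 g4, h6 _ _ _ g1 g2, h6 _ _ _ g2 g3, h6 _ _ _ g3 g4, e3, e4, ← mul_assoc (18 ^ _)] at h5
  exact le_of_mul_le_mul_right h5 (mul_pos (mul_pos (mul_pos g1 g2) g3) g4)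

theorem WQ0_eq (hV : V.VD p) (hj : 1 ≤ j) (x : E) (hz : z ∈ C.B 4 a) :
    WQ0 V k j x γ a z ξ * F0 V p j (C.pt γ a z) = W0 V p k j x (C.pt γ a z) * Q0 V j a z ξ := by
  rcases (F0_nonneg (V := V) (p := p) (j := j) (C.pt γ a z)).eq_or_lt with h | h
  · rw [W0_ee hV hj, ← h]; simp
  · have h1 := Om_sp_right k (BB V p j x) (BB_ge hV hj hz h ξ)
    have h2 := (BB_pos h).ne'
    rw [WQ0, sumA hV hj, W0_ee hV hj, ee, Q0, ← G_fam V γ hz, (eq_div_iff h2).2 h1]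
    field_simp

theorem WQ0_le (x : E) (hz : z ∈ C.B 4 a) :
    WQ0 V k j x γ a z ξ ≤ 2 ^ rr p j * (F0 V p j x * Q0 V j a z ξ) := by
  rw [WQ0, Q0, ← G_fam V γ hz, ← mul_assoc, ← mul_assoc]
  refine mul_le_mul_of_nonneg_right ?_ (Real.exp_pos _).le
  rw [F0, mul_assoc, Finset.sum_mul, Finset.mul_sum]
  exact Finset.sum_le_sum fun I _ => Om_le _ _ _

theorem Q0_ch (hV : V.VD p) (hj : 1 ≤ j) (h : C.Ov g a b z) (ξ : Fin p → Cm n) :
    Q0 V j a z ξ = Q0 V j b (C.tr g a b z) fun i => fderiv ℂ (C.tr g a b) z (ξ i) := by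
  rw [Q0, Q0, ← G_fam V (1 * g) h.1, (rel_ch hV hj h 1 ξ).1, mul_right_comm, ← Real.exp_add, mul_comm]
  congr 2; ring

theorem Q0_det (hz : z ∈ C.B 4 a) (M : Matrix (Fin p) (Fin p) ℂ) (ξ : Fin p → Cm n) :
    Q0 V j a z (mf M ξ) = ‖M.det‖ ^ (2 * NN p j) * Q0 V j a z ξ := by
  rw [Q0, Q0, ← mul_assoc]
  congr 1
  exact (G_mf (LL_an V 1 hz) M ξ).1

theorem Q0_pos_iff : 0 < Q0 V j a z ξ ↔ 0 < G (fam V j 1 a z ξ) :=
  mul_pos_iff_of_pos_right (Real.exp_pos _)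

theorem match_rel (hV : V.VD p) (hj : 1 ≤ j) (h : V.Match γ a z ξ γ' b z' ξ') : ∃ t : ℝ, 0 < t ∧
    Rel (t ^ rr p j) (fam V j γ a z ξ) (fam V j γ' b z' ξ') ∧ ‖V.L a z‖ ^ 2 = t * ‖V.L b z'‖ ^ 2 := by
  obtain ⟨hz, hz', -, u, u', t, h1, h2, h3, h4, h5, h6, h7, h8, h9⟩ := h
  have e2 : (fun w => LL V γ a (u w)) =ᶠ[𝓝 0] fun w => t w • LL V γ' b (u' w) :=
    h9.mono fun w hw => lp.ext (funext fun i => hw i)
  have r1 := rel_comp (j := j) (t := fun _ => 1) (ζ := fun i => Pi.single i 1)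
    (G' := fun w => LL V γ a (u w)) (LL_an V γ hz) (LL_rk hV γ hz) h1 h4 analyticAt_const
    (Eventually.of_forall fun w => (one_smul _ _).symm) hj
  have r2 := rel_comp (j := j) (ζ := fun i => Pi.single i 1) (LL_an V γ' hz') (LL_rk hV γ' hz') h2 h5
    h3 e2 hj
  have h10 : 0 < ‖t 0‖ ^ 2 := pow_pos (norm_pos_iff.2 h6) 2
  simp only [h7, h8, norm_one, one_pow, pow_mul] at r1 r2
  refine ⟨‖t 0‖ ^ 2, h10, ?_, ?_⟩
  · have := (r1.symm one_pos).trans r2 (pow_pos h10 _)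
    rwa [inv_one, one_mul] at this
  · have := congrArg norm e2.self_of_nhds
    simp only [LL, norm_smul, LinearIsometry.norm_map, h4, h5] at this
    rw [this, mul_pow]

theorem Q0_basic (hV : V.VD p) (hj : 1 ≤ j) (h : V.Match γ a z ξ γ' b z' ξ') :
    Q0 V j a z ξ * V.nm b z' ^ rr p j = Q0 V j b z' ξ' * V.nm a z ^ rr p j := by
  obtain ⟨t, -, h1, h2⟩ := match_rel hV hj h
  simp only [Q0, HSec.nm, ← G_fam V γ h.1, ← G_fam V γ' h.2.1, h1.1, h2, mul_pow, ← Real.exp_nat_mul]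
  have e : ∀ s : ℝ, Real.exp (-((m * rr p j : ℕ) * s)) = Real.exp (rr p j * (-(m : ℝ) * s)) := fun s => by
    congr 1; push_cast; ring
  rw [e, e]; ring

theorem W0_basic (hV : V.VD p) (hj : 1 ≤ j) (h : V.Match γ a z ξ γ' b z' ξ') (x : E) :
    W0 V p k j x (C.pt γ a z) * F0 V p j (C.pt γ' b z') =
      W0 V p k j x (C.pt γ' b z') * F0 V p j (C.pt γ a z) := by
  obtain ⟨t, ht, h1, -⟩ := match_rel hV hj h
  rw [W0_ee hV hj, W0_ee hV hj]
  rcases (F0_nonneg (V := V) (p := p) (j := j) (C.pt γ a z)).eq_or_lt with h2 | h2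
  · rw [← h2]; simp
  rcases (F0_nonneg (V := V) (p := p) (j := j) (C.pt γ' b z')).eq_or_lt with h3 | h3
  · rw [← h3]; simp
  obtain ⟨h4, h5⟩ := BB_imm hV hj h.1 h2 h.2.2.1
  have h6 : 0 < G (fam V j γ' b z' ξ') := by
    rw [h1.1] at h4; exact (pos_iff_pos_of_mul_pos h4).1 (pow_pos ht _)
  have h7 := Om_sp_right k (BB V p j x) (h5.ge.trans ((h1.2 h6).trans (BB_ge hV hj h.2.1 h3 ξ')))
  have h8 : ee V p k j x (C.pt γ a z) = ee V p k j x (C.pt γ' b z') := by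
    have g1 := (BB_pos h2).ne'
    have g2 := (BB_pos h3).ne'
    rw [ee, ee, (eq_div_iff g2).2 h7]
    field_simp
  rw [h8]; ring

/-! ### the measures -/

open Classical in
/-- the measure on the index set -/
def pp (V : HSec P J m) (p j : ℕ) (y : E) (i : J.ι) : ℝ := pr (BB V p j y) (lp.single 2 i 1) / rr p j

/-- the measure on the group -/
def mm (V : HSec P J m) (p j : ℕ) (y : E) : Γ → ℝ := Am.push J.pos (pp V p j y)

theorem mm_nonneg (y : E) (g : Γ) : 0 ≤ mm V p j y g :=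
  Am.push_nonneg _ (fun _ => div_nonneg (pr_nonneg _ _) (Nat.cast_nonneg _)) g

theorem pp_sum (h : 0 < F0 V p j y) : HasSum (pp V p j y) 1 := by
  classical
  have := (pr_hasSum (G_pos_iff.1 (BB_pos h))).div_const (rr p j : ℝ)
  rw [div_self (Nat.cast_ne_zero.2 rr_pos.ne')] at this
  exact this

theorem mm_sum (h : 0 < F0 V p j y) : HasSum (mm V p j y) 1 := Am.hasSum_push _ (pp_sum h)

theorem mm_eqv (hV : V.VD p) (hj : 1 ≤ j) (γ : Γ) (y : E) (g : Γ) :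
    mm V p j (γ • y) (γ * g) = mm V p j y g := by
  classical
  have h1 : sp (BB V p j (γ • y)) = sp fun α => U J γ (BB V p j y α) := by
    by_cases h : 0 < F0 V p j y
    · have h' : 0 < F0 V p j (γ • y) := by rwa [F0_inv hV hj]
      obtain ⟨⟨g, a, z⟩, hz, rfl⟩ := exists_rep C y
      refine (sp_eq_of_le (G_pos_iff.1 (by rw [G_map]; exact BB_pos h)) ?_).symm
      obtain ⟨I, -, h2⟩ := BB_eq hV hj hz h
      rw [C.smul_pt] at h' ⊢
      refine le_trans ?_ (BB_ge hV hj hz h' (xf P a z I))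
      have h3 : ∀ A : Idx p j → J.H, (sp fun α => U J γ (A α)) = (sp A).map (U J γ).toLinearMap :=
        fun A => by rw [sp, sp, Submodule.map_span, ← Set.range_comp]; rfl
      rw [fam_mul V γ g hz, h3, h3, h2]
    · have h' : ¬ 0 < F0 V p j (γ • y) := by rwa [F0_inv hV hj]
      rw [BB, BB, dif_neg (mt F0_pos_iff.2 h), dif_neg (mt F0_pos_iff.2 h')]
      exact congrArg sp (funext fun α => (map_zero (U J γ)).symm)
  have h2 : pp V p j (γ • y) = fun i => pp V p j y ((MulAction.toPerm γ).symm i) := by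
    funext i
    have h3 := U_single (J := J) γ (γ⁻¹ • i)
    rw [smul_inv_smul] at h3
    have h4 := pr_map (U J γ) (BB V p j y) (lp.single 2 (γ⁻¹ • i) 1)
    rw [h3, ← pr_congr h1] at h4
    exact congrArg (· / (rr p j : ℝ)) h4
  rw [mm, h2, ← Am.push_shift J.pos _ (MulAction.toPerm γ) (J.pos_smul γ), inv_mul_cancel_left, mm]

theorem mm_reiter (hV : V.VD p) (hj : 1 ≤ j) (hk : 1 ≤ k) {s : ℝ} (hs : 0 ≤ s) (hx : 0 < F0 V p j x)
    (hy : 0 < F0 V p j y) (h : W0 V p k j x y ≤ s ^ (2 * k) * (F0 V p j x * F0 V p j y)) :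
    ∑' g, |mm V p j x g - mm V p j y g| ≤ 3 * (k / rr p j + s) := by
  classical
  refine (Am.push_diff _ (pp_sum hx).summable (pp_sum hy).summable).trans ?_
  rw [W0_ee hV hj] at h
  have h1 := reiter (G_pos_iff.1 (BB_pos hx)) (G_pos_iff.1 (BB_pos hy)) hk hs
    ((div_le_iff₀ (mul_pos (BB_pos hx) (BB_pos hy))).1 (le_of_mul_le_mul_right h (mul_pos hx hy)))
  have h2 : (0 : ℝ) < rr p j := Nat.cast_pos.2 rr_pos
  simp only [pp, ← sub_div, abs_div, abs_of_pos h2, tsum_div_const]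
  rw [div_le_iff₀ h2]
  refine le_trans (le_of_eq ?_) (h1.trans (le_of_eq ?_))
  · congr
  · field_simp

end Vale.Agent.P284Z.E
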