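import Vale.Agent.P284Z.E.Rel
import Vale.Agent.P284Z.F0.Cov

/-!
# P284Z, block E: the jets on the covering, changes of charts
-/

set_option linter.all false

open scoped ContDiff Topology
open Filter Set Metric

noncomputable section

namespace Vale.Agent.P284Z.E

open Ang Vale.Agent.P272.K

variable {n : ℕ} {Γ E : Type} [Group Γ] [TopologicalSpace E] [MulAction Γ E] {C : Cov n Γ E}
  {P : Pol C} {J : IX Γ} {m p j k : ℕ} {γ γ' g : Γ} {a b : C.I} {z z' : Cm n} {x y : E}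

/-- the permutation representation -/
def U (J : IX Γ) (γ : Γ) : J.H →ₗᵢ[ℂ] J.H where
  toFun f := ⟨fun i => f (γ⁻¹ • i), memℓp_gen ((MulAction.toPerm γ⁻¹).summable_iff
    (f := fun i => ‖f i‖ ^ (2 : ENNReal).toReal) |>.2 ((lp.memℓp f).summable (by norm_num)))⟩
  map_add' f g := rfl
  map_smul' c f := rfl
  norm_map' f := by
    rw [lp.norm_eq_tsum_rpow (by norm_num), lp.norm_eq_tsum_rpow (by norm_num)]
    congr 1
    exact (MulAction.toPerm γ⁻¹).tsum_eq fun i => ‖f i‖ ^ (2 : ENNReal).toReal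

theorem U_apply (γ : Γ) (f : J.H) (i : J.ι) : U J γ f i = f (γ⁻¹ • i) := rfl

theorem U_mul (γ g : Γ) (f : J.H) : U J (γ * g) f = U J γ (U J g f) :=
  lp.ext (funext fun i => by simp only [U_apply, mul_inv_rev, mul_smul])

theorem U_one (f : J.H) : U J 1 f = f := lp.ext (funext fun i => by simp only [U_apply, inv_one, one_smul])

theorem U_single [DecidableEq J.ι] (γ : Γ) (i : J.ι) :
    U J γ (lp.single 2 i 1) = lp.single 2 (γ • i) 1 :=
  lp.ext (funext fun l => by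
    simp only [U_apply, lp.single_apply, Pi.single_apply, inv_smul_eq_iff])

theorem s_freq (P : Pol C) (hz : z ∈ C.B 4 a) : ∃ᶠ w in 𝓝 z, P.s a w ≠ 0 :=
  dense_ne_zero (C.preconn_B 4 a) (P.s_an a) (P.s_ne a) hz

theorem eq_of_s {Y : Type} [TopologicalSpace Y] [T2Space Y] (P : Pol C) (hz : z ∈ C.B 4 a)
    {f g : Cm n → Y} (hf : ContinuousAt f z) (hg : ContinuousAt g z)
    (h : ∀ᶠ w in 𝓝 z, P.s a w ≠ 0 → f w = g w) : f z = g z :=
  tendsto_nhds_unique_of_frequently_eq hf hg (((s_freq P hz).and_eventually h).mono fun w h => h.2 h.1)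

theorem σ_pos (P : Pol C) (hz : z ∈ C.B 4 a) (γ : Γ) (h : P.s a z ≠ 0) : 0 < P.σ (C.pt γ a z) := by
  rw [P.σ_eq γ a z hz]
  exact mul_pos (pow_pos (norm_pos_iff.2 h) 2) (Real.exp_pos _)

/-- the frame dual to `dx`, without poles -/
def MM (P : Pol C) (a : C.I) : Cm n → (Cm n →L[ℂ] Cm n) := (P.dx_pole a).choose

theorem MM_an (P : Pol C) (a : C.I) : AnalyticOnNhd ℂ (MM P a) (C.B 4 a) := (P.dx_pole a).choose_spec.1

theorem MM_eq (P : Pol C) (hz : z ∈ C.B 4 a) (h : P.s a z ≠ 0) (v : Cm n) :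
    fderiv ℂ (fun w => P.x (C.pt 1 a w)) z (MM P a z v) = P.s a z ^ P.N • v :=
  congrArg (fun L : Cm n →L[ℂ] Cm n => L v) ((P.dx_pole a).choose_spec.2 z hz h)

theorem x_an (P : Pol C) (hz : z ∈ C.B 4 a) (h : P.s a z ≠ 0) :
    AnalyticAt ℂ (fun w => P.x (C.pt 1 a w)) z := by
  obtain ⟨X, h1, h2⟩ := P.x_pole a
  refine ((((P.s_an a z hz).pow P.N).inv (pow_ne_zero _ h)).smul (h1 z hz)).congr ?_
  filter_upwards [(C.isOpen_B 4 a).mem_nhds hz, (P.s_an a z hz).continuousAt.eventually_ne h]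
    with w h3 h4
  show (P.s a w ^ P.N)⁻¹ • X w = _
  rw [h2 w h3 h4, inv_smul_smul₀ (pow_ne_zero _ h4)]

theorem dx_inj (P : Pol C) (hz : z ∈ C.B 4 a) (h : P.s a z ≠ 0) :
    Function.Injective (fderiv ℂ (fun w => P.x (C.pt 1 a w)) z) :=
  (LinearMap.injective_iff_surjective
    (f := (fderiv ℂ (fun w => P.x (C.pt 1 a w)) z : Cm n →ₗ[ℂ] Cm n))).2 fun v =>
    ⟨MM P a z ((P.s a z ^ P.N)⁻¹ • v), (MM_eq P hz h _).trans (smul_inv_smul₀ (pow_ne_zero _ h) v)⟩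

/-- the frames dual to `dx` -/
def xf (P : Pol C) (a : C.I) (z : Cm n) (I : Fin p → Fin n) : Fin p → Cm n :=
  fun k => MM P a z (Pi.single (I k) 1)

theorem xf_an (P : Pol C) (hz : z ∈ C.B 4 a) (I : Fin p → Fin n) (k : Fin p) :
    AnalyticAt ℂ (fun w => xf P a w I k) z :=
  ((ContinuousLinearMap.apply ℂ (Cm n) (Pi.single (I k) 1 : Cm n)).analyticAt _).comp (MM_an P a z hz)

variable (V : HSec P J m)

/-- the section on the sheet `γ` -/
def LL (γ : Γ) (a : C.I) (w : Cm n) : J.H := U J γ (V.L a w)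

theorem LL_an (γ : Γ) (hz : z ∈ C.B 4 a) : AnalyticAt ℂ (LL V γ a) z :=
  ((U J γ).toContinuousLinearMap.analyticAt _).comp (V.an a z hz)

theorem LL_im (γ : Γ) (hz : z ∈ C.B 4 a) {ξ : Fin p → Cm n} : Im (LL V γ a) z ξ ↔ V.Imm a z ξ :=
  im_iso (U J γ) (V.an a z hz)

variable {V} in
theorem LL_rk (hV : V.VD p) (γ : Γ) (hz : z ∈ C.B 4 a) : Rk p (LL V γ a) z :=
  ((C.isOpen_B 4 a).eventually_mem hz).mono fun w hw ξ h => hV.rank a w hw ξ ((LL_im V γ hw).1 h)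

theorem chg (h : C.Ov g a b z) : ∃ t : Cm n → ℂ, AnalyticAt ℂ t z ∧
    ‖t z‖ ^ 2 = Real.exp (C.ρ a z - C.ρ b (C.tr g a b z)) ∧
    (∀ γ, LL V (γ * g) a =ᶠ[𝓝 z] fun w => t w ^ m • LL V γ b (C.tr g a b w)) ∧
    ∀ v, fderiv ℂ (C.tr g a b) z (MM P a z v) = t z ^ P.N • MM P b (C.tr g a b z) v := by
  obtain ⟨t, h1, h2, h3⟩ := P.s_ch g a b z h
  have h4 : ∀ᶠ w in 𝓝 z, C.Ov g a b w ∧ P.s a w = t w * P.s b (C.tr g a b w) :=
    (C.ev_Ov h).and (h3.mono fun w hw => hw.1)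
  refine ⟨t, h1, ?_, fun γ => ?_, fun v => ?_⟩
  · rw [h3.self_of_nhds.2, add_sub_cancel_left, Real.exp_log (pow_pos (norm_pos_iff.2 h2) 2)]
  · filter_upwards [h4.eventually_nhds, h1.eventually_analyticAt] with w h5 h6
    have h7 := h5.self_of_nhds.1
    refine eq_of_s P h7.1 (LL_an V _ h7.1).continuousAt ((h6.pow m).smul
      ((LL_an V γ (C.tr_mem h7)).comp (C.an_tr h7))).continuousAt (h5.mono fun u hu h0 => ?_)
    have h8 : P.s b (C.tr g a b u) ≠ 0 := fun h => h0 (by rw [hu.2, h, mul_zero])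
    show LL V (γ * g) a u = t u ^ m • LL V γ b (C.tr g a b u)
    rw [LL, LL, U_mul, ← map_smul, V.eq a u hu.1.1 h0, V.eq b _ (C.tr_mem hu.1) h8, smul_smul,
      ← mul_pow, ← hu.2, map_smul, C.pt_tr hu.1 1, one_mul, C.pt_eq g]
    congr 2
    refine lp.ext (funext fun i => ?_)
    rw [U_apply, ← V.eqv g _ _ (σ_pos P hu.1.1 1 h0), smul_inv_smul]
  · refine eq_of_s P h.1 (f := fun w => fderiv ℂ (C.tr g a b) w (MM P a w v))
      (g := fun w => t w ^ P.N • MM P b (C.tr g a b w) v)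
      ((C.an_tr h).fderiv.continuousAt.clm_apply
        ((MM_an P a z h.1).continuousAt.clm_apply continuousAt_const))
      ((h1.pow _).continuousAt.smul (((MM_an P b _ (C.tr_mem h)).comp
        (C.an_tr h)).continuousAt.clm_apply continuousAt_const)) (h4.mono fun u hu h0 => ?_)
    have h8 : P.s b (C.tr g a b u) ≠ 0 := fun h => h0 (by rw [hu.2, h, mul_zero])
    refine dx_inj P (C.tr_mem hu.1) h8 ?_
    have h9 : (fun w => P.x (C.pt 1 a w)) =ᶠ[𝓝 u] (fun w => P.x (C.pt 1 b w)) ∘ C.tr g a b :=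
      (C.ev_Ov hu.1).mono fun w hw => by
        show _ = P.x (C.pt 1 b (C.tr g a b w))
        rw [C.pt_tr hw 1, one_mul, C.pt_eq g, P.x_inv]
    have h10 := MM_eq P hu.1.1 h0 v
    rw [h9.fderiv_eq, fderiv_comp u (x_an P (C.tr_mem hu.1) h8).differentiableAt
      (C.an_tr hu.1).differentiableAt] at h10
    rw [map_smul, MM_eq P (C.tr_mem hu.1) h8, smul_smul, ← mul_pow, ← hu.2]
    exact h10

/-- the number of multi-indices -/
abbrev rr (p j : ℕ) : ℕ := Fintype.card (Idx p j)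

theorem rr_pos : 0 < rr p j := Fintype.card_pos_iff.2 ⟨⟨0, by simp⟩⟩

/-- the jets at the point `pt γ a z` -/
def fam (j : ℕ) (γ : Γ) (a : C.I) (z : Cm n) (ξ : Fin p → Cm n) : Idx p j → J.H :=
  jets j (LL V γ a) z ξ

theorem fam_eq (γ : Γ) (hz : z ∈ C.B 4 a) (ξ : Fin p → Cm n) :
    fam V j γ a z ξ = fun α => U J γ (jets j (V.L a) z ξ α) := jets_iso (U J γ) (V.an a z hz) ξ

theorem fam_mul (γ g : Γ) (hz : z ∈ C.B 4 a) (ξ : Fin p → Cm n) :
    fam V j (γ * g) a z ξ = fun α => U J γ (fam V j g a z ξ α) := by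
  simp only [fam_eq V _ hz, U_mul]

theorem G_fam (γ : Γ) (hz : z ∈ C.B 4 a) (ξ : Fin p → Cm n) :
    G (fam V j γ a z ξ) = G (fam V j 1 a z ξ) := by
  rw [fam_eq V _ hz, fam_eq V _ hz, G_map, G_map]

theorem fam_an {W : Type} [NormedAddCommGroup W] [NormedSpace ℂ W] {u : W → Cm n}
    {ξ : W → Fin p → Cm n} {w : W} (γ : Γ) (hz : u w ∈ C.B 4 a) (hu : AnalyticAt ℂ u w)
    (hξ : ∀ i, AnalyticAt ℂ (fun w => ξ w i) w) (α : Idx p j) :
    AnalyticAt ℂ (fun w => fam V j γ a (u w) (ξ w) α) w := an_jet (LL_an V γ hz) hu hξ α.1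

/-- the weight of the Gram determinants along the frames `xf` -/
def ex (P : Pol C) (m p j : ℕ) : ℕ := m * rr p j + P.N * p * NN p j

variable {V}

theorem rel_ch (hV : V.VD p) (hj : 1 ≤ j) (h : C.Ov g a b z) (γ : Γ) (ξ : Fin p → Cm n) :
    Rel (Real.exp ((m * rr p j : ℕ) * (C.ρ a z - C.ρ b (C.tr g a b z)))) (fam V j (γ * g) a z ξ)
      (fam V j γ b (C.tr g a b z) fun i => fderiv ℂ (C.tr g a b) z (ξ i)) := by
  obtain ⟨t, h1, h2, h3, -⟩ := chg V h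
  have := rel_comp (ζ := ξ) (LL_an V γ (C.tr_mem h)) (LL_rk hV γ (C.tr_mem h)) (C.an_tr h) rfl
    (h1.pow m) (h3 γ) hj
  rw [Real.exp_nat_mul, ← h2, ← pow_mul]
  rwa [Pi.pow_apply, norm_pow, ← pow_mul, mul_left_comm] at this

theorem rel_xf (hV : V.VD p) (hj : 1 ≤ j) (h : C.Ov g a b z) (γ : Γ) (I : Fin p → Fin n) :
    Rel (Real.exp (ex P m p j * (C.ρ a z - C.ρ b (C.tr g a b z)))) (fam V j (γ * g) a z (xf P a z I))
      (fam V j γ b (C.tr g a b z) (xf P b (C.tr g a b z) I)) := by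
  obtain ⟨t, -, h2, -, h4⟩ := chg V h
  have h5 := rel_ch hV hj h γ (xf P a z I)
  have h6 : (fun i => fderiv ℂ (C.tr g a b) z (xf P a z I i)) =
      mf (Matrix.diagonal fun _ => t z ^ P.N) (xf P b (C.tr g a b z) I) := by
    funext i; simp [mf, xf, h4, Matrix.diagonal_apply, ite_smul]
  have h7 := G_mf (j := j) (LL_an V γ (C.tr_mem h)) (Matrix.diagonal fun _ => t z ^ P.N)
    (xf P b (C.tr g a b z) I)
  have h8 : ‖(Matrix.diagonal fun _ : Fin p => t z ^ P.N).det‖ ^ (2 * NN p j) =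
      Real.exp ((P.N * p * NN p j : ℕ) * (C.ρ a z - C.ρ b (C.tr g a b z))) := by
    rw [Real.exp_nat_mul, ← h2, Matrix.det_diagonal, Finset.prod_const, norm_pow, norm_pow,
      ← pow_mul, ← pow_mul, ← pow_mul, Finset.card_univ, Fintype.card_fin]
    congr 1; ring
  rw [h6] at h5
  rw [h8] at h7
  have := h5.trans h7 (Real.exp_pos _)
  rwa [← Real.exp_add, ← add_mul, ← Nat.cast_add] at this

theorem exists_rep (C : Cov n Γ E) (y : E) : ∃ q : Γ × C.I × Cm n, q.2.2 ∈ C.B 4 q.2.1 ∧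
    y = C.pt q.1 q.2.1 q.2.2 := by
  obtain ⟨γ, a, z, hz, h⟩ := C.exists_pt y
  exact ⟨(γ, a, z), C.B_mono (by norm_num) a hz, h⟩

/-- the weight -/
def wt (P : Pol C) (m p j : ℕ) (a : C.I) (z : Cm n) : ℝ := Real.exp (-(ex P m p j * C.ρ a z))

variable (V) in
/-- the normalised jets at `y` along the frame `I` -/
def AA (j : ℕ) (y : E) (I : Fin p → Fin n) : Idx p j → J.H := fun α =>
  ((Real.exp (-(ex P m p j * C.ρ (exists_rep C y).choose.2.1 (exists_rep C y).choose.2.2) /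
    (2 * rr p j : ℕ)) : ℝ) : ℂ) •
  fam V j (exists_rep C y).choose.1 (exists_rep C y).choose.2.1 (exists_rep C y).choose.2.2
    (xf P (exists_rep C y).choose.2.1 (exists_rep C y).choose.2.2 I) α

theorem rel_A (hV : V.VD p) (hj : 1 ≤ j) (γ : Γ) (hz : z ∈ C.B 4 a) (I : Fin p → Fin n) :
    Rel (wt P m p j a z) (AA V j (C.pt γ a z) I) (fam V j γ a z (xf P a z I)) := by
  obtain ⟨h1, h2⟩ := (exists_rep C (C.pt γ a z)).choose_spec
  unfold AA
  generalize (exists_rep C (C.pt γ a z)).choose = q at h1 h2 ⊢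
  obtain ⟨γ', b, z'⟩ := q
  obtain ⟨h3, h4⟩ := C.Ov_of_eq h1 hz h2.symm
  have h5 := rel_xf hV hj h3 γ I
  rw [h4, mul_inv_cancel_left] at h5
  have h6 := (rel_smul ((Real.exp (-(ex P m p j * C.ρ b z') / (2 * rr p j : ℕ)) : ℝ) : ℂ) _).trans h5
    (Real.exp_pos _)
  convert h6 using 1
  have h7 : ((2 * rr p j : ℕ) : ℝ) ≠ 0 := by have := rr_pos (p := p) (j := j); positivity
  rw [Complex.norm_real, Real.norm_of_nonneg (Real.exp_pos _).le, ← Real.exp_nat_mul,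
    mul_div_cancel₀ _ h7, ← Real.exp_add, wt]
  congr 1; ring

/-- the function `F` before normalisation -/
def F0 (V : HSec P J m) (p j : ℕ) (y : E) : ℝ := ∑ I : Fin p → Fin n, G (AA V j y I)

/-- the function `W` before normalisation -/
def W0 (V : HSec P J m) (p k j : ℕ) (x y : E) : ℝ :=
  ∑ I : Fin p → Fin n, ∑ I' : Fin p → Fin n, Om k (AA V j x I) (AA V j y I')

variable (V) in
/-- the function `Q` before normalisation -/
def Q0 (j : ℕ) (a : C.I) (z : Cm n) (ξ : Fin p → Cm n) : ℝ :=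
  G (fam V j 1 a z ξ) * Real.exp (-((m * rr p j : ℕ) * C.ρ a z))

variable (V) in
/-- the function `WQ` before normalisation -/
def WQ0 (k j : ℕ) (x : E) (γ : Γ) (a : C.I) (z : Cm n) (ξ : Fin p → Cm n) : ℝ :=
  (∑ I : Fin p → Fin n, Om k (AA V j x I) (fam V j γ a z ξ)) *
    Real.exp (-((m * rr p j : ℕ) * C.ρ a z))

theorem F0_eq (hV : V.VD p) (hj : 1 ≤ j) (γ : Γ) (hz : z ∈ C.B 4 a) : F0 V p j (C.pt γ a z) =
    (∑ I : Fin p → Fin n, G (fam V j 1 a z (xf P a z I))) * wt P m p j a z := by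
  rw [F0, Finset.sum_mul]
  exact Finset.sum_congr rfl fun I _ => by rw [(rel_A hV hj γ hz I).1, G_fam V γ hz, mul_comm]

theorem W0_right (hV : V.VD p) (hj : 1 ≤ j) (x : E) (γ : Γ) (hz : z ∈ C.B 4 a) :
    W0 V p k j x (C.pt γ a z) = (∑ I : Fin p → Fin n, ∑ I' : Fin p → Fin n,
      Om k (AA V j x I) (fam V j γ a z (xf P a z I'))) * wt P m p j a z := by
  rw [mul_comm]
  simp only [W0, Finset.mul_sum, (rel_A hV hj γ hz _).om']

theorem W0_eq (hV : V.VD p) (hj : 1 ≤ j) (γ γ' : Γ) (hz : z ∈ C.B 4 a) (hz' : z' ∈ C.B 4 b) :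
    W0 V p k j (C.pt γ a z) (C.pt γ' b z') = (∑ I : Fin p → Fin n, ∑ I' : Fin p → Fin n,
      Om k (fam V j γ a z (xf P a z I)) (fam V j γ' b z' (xf P b z' I'))) *
        (wt P m p j a z * wt P m p j b z') := by
  rw [W0_right hV hj _ γ' hz']
  simp only [Finset.sum_mul, (rel_A hV hj γ hz _).om]
  exact Finset.sum_congr rfl fun I _ => Finset.sum_congr rfl fun I' _ => by ring

theorem F0_nonneg (y : E) : 0 ≤ F0 V p j y := Finset.sum_nonneg fun _ _ => G_nonneg _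

theorem W0_nonneg (x y : E) : 0 ≤ W0 V p k j x y :=
  Finset.sum_nonneg fun _ _ => Finset.sum_nonneg fun _ _ => Om_nonneg _ _ _

theorem Q0_nonneg (ξ : Fin p → Cm n) : 0 ≤ Q0 V j a z ξ := mul_nonneg (G_nonneg _) (Real.exp_pos _).le

theorem WQ0_nonneg (ξ : Fin p → Cm n) : 0 ≤ WQ0 V k j x γ a z ξ :=
  mul_nonneg (Finset.sum_nonneg fun _ _ => Om_nonneg _ _ _) (Real.exp_pos _).le

end Vale.Agent.P284Z.E
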