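import Vale.Agent.P284Z.E.Jet
import Mathlib.Analysis.Calculus.InverseFunctionTheorem.ContDiff

/-!
# P284Z, block E: the constant rank factorisation
-/

set_option linter.all false

open scoped ContDiff Topology
open Filter Set Metric

noncomputable section

namespace Vale.Agent.P284Z.E

open Ang Vale.Agent.P272.K

variable {W W' V V' : Type} [NormedAddCommGroup W] [NormedSpace ℂ W] [NormedAddCommGroup W']
  [NormedSpace ℂ W'] [NormedAddCommGroup V] [InnerProductSpace ℂ V] [NormedAddCommGroup V']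
  [InnerProductSpace ℂ V'] {F : W → V} {z : W} {k p j : ℕ} {ξ : Fin p → W}

/-- the value and the first derivatives -/
def j1 (F : W → V) (z : W) (ξ : Fin p → W) : Fin (p + 1) → V :=
  Fin.cons (F z) fun i => fderiv ℂ F z (ξ i)

/-- `[F]` is immersive along `ξ` -/
def Im (F : W → V) (z : W) (ξ : Fin p → W) : Prop := LinearIndependent ℂ (j1 F z ξ)

/-- the rank of `[F]` is at most `p` near `z` -/
def Rk (p : ℕ) (F : W → V) (z : W) : Prop := ∀ᶠ w in 𝓝 z, ∀ ξ : Fin (p + 1) → W, ¬ Im F w ξ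

/-- `[F]` factors through the slice defined by `ξ` -/
def Fac (F : W → V) (z : W) (ξ : Fin p → W) : Prop :=
  ∃ (a : W → ℂ) (π : W → Cm p), AnalyticAt ℂ a z ∧ AnalyticAt ℂ π z ∧ π z = 0 ∧ a z = 1 ∧
    ∀ᶠ w in 𝓝 z, F w = a w • F (z + fr ξ (π w))

theorem exists_dual {ι : Type} [Fintype ι] [DecidableEq ι] {v : ι → V} (hv : LinearIndependent ℂ v) :
    ∃ Λ : V →L[ℂ] (ι → ℂ), ∀ i, Λ (v i) = Pi.single i 1 := by
  let b : Module.Basis ι ℂ (sp v) := Module.Basis.span hv
  refine ⟨(b.equivFunL : sp v →L[ℂ] ι → ℂ).comp (sp v).orthogonalProjectionOnto, fun i => ?_⟩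
  have h : v i = (b i : V) := (congrArg Subtype.val (Module.Basis.span_apply hv i)).symm
  rw [h, ContinuousLinearMap.comp_apply, Submodule.orthogonalProjectionOnto_mem_subspace_eq_self]
  funext l
  show b.equivFun (b i) l = _
  rw [Module.Basis.equivFun_self, Pi.single_apply]
  simp only [eq_comm]

theorem loc_inv {X : Type} [NormedAddCommGroup X] [NormedSpace ℂ X] [CompleteSpace X] {Φ : X → X}
    {x : X} (ha : AnalyticAt ℂ Φ x) (D : X ≃L[ℂ] X) (hD : HasFDerivAt Φ (D : X →L[ℂ] X) x) :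
    ∃ Ψ : X → X, AnalyticAt ℂ Ψ (Φ x) ∧ Ψ (Φ x) = x ∧ (∀ᶠ y in 𝓝 x, Ψ (Φ y) = y) ∧
      ∀ᶠ y in 𝓝 (Φ x), Φ (Ψ y) = y := by
  have h1 : ContDiffAt ℂ ω Φ x := ha.contDiffAt
  have h2 := h1.hasStrictFDerivAt' hD (by simp)
  exact ⟨h1.localInverse hD (by simp), (h1.to_localInverse hD (by simp)).analyticAt,
    h1.localInverse_apply_image hD (by simp), h2.eventually_left_inverse, h2.eventually_right_inverse⟩

variable [CompleteSpace V]

theorem fac_of [CompleteSpace W] (ha : AnalyticAt ℂ F z) (hr : Rk p F z) (hi : Im F z ξ) :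
    Fac F z ξ := by
  obtain ⟨Λ, hΛ⟩ := exists_dual hi
  let l₀ : V →L[ℂ] ℂ := (ContinuousLinearMap.proj 0).comp Λ
  let l₁ : V →L[ℂ] Cm p :=
    ContinuousLinearMap.pi fun i => (ContinuousLinearMap.proj (Fin.succ i)).comp Λ
  have e0 : l₀ (F z) = 1 := by
    have := congrFun (hΛ 0) 0
    simpa [l₀, j1] using this
  have e1 : l₁ (F z) = 0 := funext fun i => by
    have := congrFun (hΛ 0) i.succ
    simpa [l₁, j1] using this
  have e2 : ∀ i, l₀ (fderiv ℂ F z (ξ i)) = 0 := fun i => by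
    have := congrFun (hΛ i.succ) 0
    simpa [l₀, j1] using this
  have e3 : ∀ i, l₁ (fderiv ℂ F z (ξ i)) = Pi.single i 1 := fun i => funext fun l => by
    have := congrFun (hΛ i.succ) l.succ
    simpa [l₁, j1, Pi.single_apply] using this
  let a : W → ℂ := fun w => l₀ (F w)
  let G : W → V := fun w => (a w)⁻¹ • F w
  let s : W → Cm p := fun w => l₁ (G w)
  have haa : AnalyticAt ℂ a z := (l₀.analyticAt _).comp ha
  have ha0 : a z ≠ 0 := by simp [a, e0]
  have hG : AnalyticAt ℂ G z := (haa.inv ha0).smul ha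
  have hs : AnalyticAt ℂ s z := (l₁.analyticAt _).comp hG
  have hs0 : s z = 0 := by simp [s, G, e1]
  have hne : ∀ᶠ w in 𝓝 z, a w ≠ 0 := haa.continuousAt.eventually_ne ha0
  have hFG : ∀ᶠ w in 𝓝 z, F w = a w • G w := hne.mono fun w hw => by
    simp [G, smul_smul, mul_inv_cancel₀ hw]
  have hl : ∀ᶠ w in 𝓝 z, l₀ (G w) = 1 := hne.mono fun w hw => by
    simp only [G, map_smul, smul_eq_mul]; exact inv_mul_cancel₀ hw
  have hd : ∀ᶠ w in 𝓝 z, ∀ u, fderiv ℂ F w u = a w • fderiv ℂ G w u + fderiv ℂ a w u • G w ∧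
      l₀ (fderiv ℂ G w u) = 0 ∧ fderiv ℂ s w u = l₁ (fderiv ℂ G w u) := by
    filter_upwards [hFG.eventually_nhds, hl.eventually_nhds, haa.eventually_analyticAt,
      hG.eventually_analyticAt] with w h1 h2 h3 h4 u
    refine ⟨?_, ?_, ?_⟩
    · rw [Filter.EventuallyEq.fderiv_eq h1,
        (h3.differentiableAt.hasFDerivAt.fun_smul h4.differentiableAt.hasFDerivAt).fderiv]
      simp
    · have h5 := (l₀.hasFDerivAt.comp w h4.differentiableAt.hasFDerivAt).fderiv
      have h6 : fderiv ℂ (l₀ ∘ G) w = fderiv ℂ (fun _ => (1 : ℂ)) w :=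
        Filter.EventuallyEq.fderiv_eq h2
      have := congrArg (fun L : W →L[ℂ] ℂ => L u) (h5.symm.trans h6)
      simpa using this
    · exact congrArg (fun L : W →L[ℂ] Cm p => L u)
        (l₁.hasFDerivAt.comp w h4.differentiableAt.hasFDerivAt).fderiv
  have hds : (fderiv ℂ s z).comp (fr ξ) = ContinuousLinearMap.id ℂ _ := by
    have h1 : ∀ i, fderiv ℂ s z (ξ i) = Pi.single i 1 := fun i => by
      obtain ⟨h1, h2, h3⟩ := hd.self_of_nhds (ξ i)
      have h4 := congrArg l₁ h1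
      rw [e3, map_add, map_smul, map_smul, show l₁ (G z) = 0 from hs0, smul_zero, add_zero,
        show a z = 1 from e0, one_smul] at h4
      rw [h3, h4]
    refine ContinuousLinearMap.ext fun c => ?_
    simp only [ContinuousLinearMap.comp_apply, fr_apply, map_sum, map_smul, h1]
    funext l; simp [Pi.single_apply]
  have hinj : ∀ᶠ w in 𝓝 z, ∀ c, fderiv ℂ s w (fr ξ c) = 0 → c = 0 := by
    have h1 : ContinuousAt (fun w => ‖ContinuousLinearMap.id ℂ _ - (fderiv ℂ s w).comp (fr ξ)‖) z :=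
      (continuousAt_const.sub (hs.fderiv.continuousAt.clm_comp continuousAt_const)).norm
    filter_upwards [h1.eventually (gt_mem_nhds (show _ < (1 : ℝ) by simp [hds]))] with w hw c hc
    have h2 := (ContinuousLinearMap.id ℂ _ - (fderiv ℂ s w).comp (fr ξ)).le_opNorm c
    simp only [ContinuousLinearMap.sub_apply, ContinuousLinearMap.id_apply,
      ContinuousLinearMap.comp_apply, hc, sub_zero] at h2
    by_contra h
    have := norm_pos_iff.2 h
    nlinarith
  have hK : ∀ᶠ w in 𝓝 z, ∀ v, fderiv ℂ s w v = 0 → fderiv ℂ G w v = 0 := by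
    filter_upwards [hd, hinj, hr, hne, hFG, hl] with w hd hinj hr hne hFG hl v hv
    obtain ⟨c, hc, i, hi⟩ := Fintype.not_linearIndependent_iff.1 (hr (Fin.cons v ξ))
    simp only [j1, Fin.sum_univ_succ, Fin.cons_zero, Fin.cons_succ] at hc
    set u := c (Fin.succ 0) • v + fr ξ fun l => c l.succ.succ with hu
    have h1 : c 0 • F w + fderiv ℂ F w u = 0 := by
      rw [← hc, hu, map_add, map_smul, fr_apply, map_sum]; simp only [map_smul]
    obtain ⟨h2, h3, h4⟩ := hd u
    have h5 : c 0 * a w + fderiv ℂ a w u = 0 := by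
      have := congrArg l₀ h1
      rw [h2, map_add, map_add, map_smul, map_smul, map_smul, h3, hl, map_zero] at this
      simpa using this
    have h6 : fderiv ℂ G w u = 0 := by
      rw [h2, hFG, smul_smul, add_left_comm, ← add_smul, h5, zero_smul, add_zero] at h1
      exact (smul_eq_zero.1 h1).resolve_left hne
    have h7 : (fun l : Fin p => c l.succ.succ) = 0 := by
      refine hinj _ ?_
      rw [h6, map_zero, hu, map_add, map_smul, hv, smul_zero, zero_add] at h4
      exact h4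
    rw [h7, map_zero, add_zero] at hu
    by_cases h8 : c (Fin.succ 0) = 0
    · exfalso
      rw [h8, zero_smul] at hu
      rw [hu, map_zero, add_zero] at h5
      have h9 : c 0 = 0 := (mul_eq_zero.1 h5).resolve_right hne
      refine hi ?_
      refine Fin.cases h9 (fun i => Fin.cases h8 (fun l => congrFun h7 l) i) i
    · rw [hu, map_smul] at h6
      exact (smul_eq_zero.1 h6).resolve_left h8
  let m : W × Cm p →L[ℂ] W := ContinuousLinearMap.fst ℂ _ _ + (fr ξ).comp (ContinuousLinearMap.snd ℂ _ _)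
  have hm : ∀ q, m q = q.1 + fr ξ q.2 := fun q => rfl
  have hm0 : m (z, 0) = z := by simp [hm]
  let Φ : W × Cm p → W × Cm p := fun q => (q.1, s (m q))
  have hΦ : AnalyticAt ℂ Φ (z, 0) := analyticAt_fst.prod (hs.comp_of_eq (m.analyticAt _) hm0)
  have hΦ0 : Φ (z, 0) = (z, 0) := by simp only [Φ, hm0, hs0]
  have hD : HasFDerivAt Φ (((ContinuousLinearEquiv.refl ℂ W).skewProd
      (ContinuousLinearEquiv.refl ℂ (Cm p)) (fderiv ℂ s z) : (W × Cm p) ≃L[ℂ] (W × Cm p)) :
      W × Cm p →L[ℂ] W × Cm p) (z, 0) := by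
    have h1 : HasFDerivAt s (fderiv ℂ s z) (m (z, 0)) := hm0.symm ▸ hs.differentiableAt.hasFDerivAt
    refine ((hasFDerivAt_fst (p := (z, (0 : Cm p)))).prodMk (h1.comp _ m.hasFDerivAt)).congr_fderiv ?_
    refine ContinuousLinearMap.ext fun q => Prod.ext rfl (Eq.symm ?_)
    have h2 := congrArg (fun L : Cm p →L[ℂ] Cm p => L q.2) hds
    simp only [ContinuousLinearMap.comp_apply, ContinuousLinearMap.id_apply] at h2
    show q.2 + fderiv ℂ s z q.1 = fderiv ℂ s z (q.1 + fr ξ q.2)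
    rw [map_add, h2, add_comm]
  obtain ⟨Ψ, hΨ, hΨ0, hL, hR⟩ := loc_inv hΦ _ hD
  rw [hΦ0] at hΨ hΨ0 hR
  let c : W × Cm p → W := fun q => m (Ψ q)
  have hc : AnalyticAt ℂ c (z, 0) := (m.analyticAt _).comp hΨ
  have hc0 : c (z, 0) = z := by simp only [c, hΨ0, hm0]
  have hct : Tendsto c (𝓝 (z, 0)) (𝓝 z) := by
    have := hc.continuousAt.tendsto
    rwa [hc0] at this
  have hsc : ∀ᶠ q in 𝓝 ((z, 0) : W × Cm p), s (c q) = q.2 := hR.mono fun q hq => congrArg Prod.snd hq
  have hR' : ∀ᶠ q in 𝓝 ((z, 0) : W × Cm p), HasFDerivAt (fun y => G (c (y, q.2))) (0 : W →L[ℂ] V) q.1 := by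
    filter_upwards [hsc.eventually_nhds, hc.eventually_analyticAt, hct.eventually hK,
      hct.eventually hG.eventually_analyticAt, hct.eventually hs.eventually_analyticAt]
      with q h1 h2 h3 h4 h5
    have h6 : HasFDerivAt (fun y : W => c (y, q.2))
        ((fderiv ℂ c q).comp (ContinuousLinearMap.inl ℂ _ _)) q.1 :=
      HasFDerivAt.comp (g := c) q.1 h2.differentiableAt.hasFDerivAt (hasFDerivAt_prodMk_left q.1 q.2)
    have h7 := h5.differentiableAt.hasFDerivAt.comp q.1 h6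
    have h8 : (fun y : W => s (c (y, q.2))) =ᶠ[𝓝 q.1] fun _ => q.2 :=
      (Continuous.prodMk_left q.2).continuousAt.eventually h1
    have h9 := h7.unique ((hasFDerivAt_const q.2 q.1).congr_of_eventuallyEq h8)
    refine (h4.differentiableAt.hasFDerivAt.comp q.1 h6).congr_fderiv ?_
    refine ContinuousLinearMap.ext fun v => h3 _ ?_
    exact congrArg (fun L : W →L[ℂ] Cm p => L v) h9
  obtain ⟨δ, hδ, hb⟩ := Metric.eventually_nhds_iff_ball.1 hR'
  rw [← ball_prod_same] at hb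
  have hconst : ∀ y ∈ ball z δ, ∀ t ∈ ball (0 : Cm p) δ, G (c (y, t)) = G (c (z, t)) := fun y hy t ht =>
    isOpen_ball.is_const_of_fderiv_eq_zero (𝕜 := ℂ) (f := fun y => G (c (y, t)))
      (convex_ball z δ).isPreconnected
      (fun x hx => (hb (x, t) ⟨hx, ht⟩).differentiableAt.differentiableWithinAt)
      (fun x hx => (hb (x, t) ⟨hx, ht⟩).fderiv) hy (mem_ball_self hδ)
  let π : W → Cm p := fun w => (Ψ (z, s w)).2
  have hzs : AnalyticAt ℂ (fun w => (z, s w)) z := analyticAt_const.prod hs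
  have hzs0 : Tendsto (fun w => (z, s w)) (𝓝 z) (𝓝 (z, 0)) := hs0 ▸ hzs.continuousAt.tendsto
  have hπ : AnalyticAt ℂ π z := analyticAt_snd.comp (hΨ.comp_of_eq hzs (by rw [hs0]))
  have hπ0 : π z = 0 := by simp only [π, hs0, hΨ0]
  have hu : AnalyticAt ℂ (fun w => z + fr ξ (π w)) z :=
    analyticAt_const.add (((fr ξ).analyticAt _).comp hπ)
  have hu0 : z + fr ξ (π z) = z := by simp [hπ0]
  refine ⟨fun w => a w * (a (z + fr ξ (π w)))⁻¹, π,
    haa.mul ((haa.comp_of_eq hu hu0).inv (by simpa [hπ0] using ha0)), hπ, hπ0,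
    by simp only [hu0]; exact mul_inv_cancel₀ ha0, ?_⟩
  have hst : Tendsto s (𝓝 z) (𝓝 0) := hs0 ▸ hs.continuousAt.tendsto
  filter_upwards [hFG, ball_mem_nhds z hδ, hst.eventually (ball_mem_nhds 0 hδ),
    (Continuous.prodMk_left (0 : Cm p)).continuousAt.eventually hL, hzs0.eventually hR]
    with w h1 h2 h3 h4 h5
  have h6 : c (w, s w) = w := by
    have : Φ (w, 0) = (w, s w) := by simp [Φ, hm]
    rw [this] at h4
    simp [c, h4, hm]
  have h7 : c (z, s w) = z + fr ξ (π w) := by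
    have : (Ψ (z, s w)).1 = z := congrArg Prod.fst h5
    simp only [c, hm, this, π]
  have h8 := hconst w h2 _ h3
  rw [h6, h7] at h8
  rw [h1, h8, mul_smul]

end Vale.Agent.P284Z.E
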