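import Vale.Agent.P284Z.E.Ord
import Vale.Agent.P284Z.D.Defs
import Mathlib.LinearAlgebra.Matrix.Transvection
import Mathlib.LinearAlgebra.Matrix.Block

/-!
# P284Z, block E: jets along a frame, change of frame
-/

set_option linter.all false

open scoped ContDiff Topology
open Filter Set Metric

noncomputable section

namespace Vale.Agent.P284Z.E

open Ang Vale.Agent.P272.K

instance fIdx (p j : ℕ) : Fintype (Idx p j) := Fintype.ofFinite _
instance dIdx (p j : ℕ) : DecidableEq (Idx p j) := Classical.decEq _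

variable {W W' H H' : Type} [NormedAddCommGroup W] [NormedSpace ℂ W] [NormedAddCommGroup W']
  [NormedSpace ℂ W'] [NormedAddCommGroup H] [NormedSpace ℂ H] [NormedAddCommGroup H']
  [NormedSpace ℂ H'] {f g : W → H} {z : W} {k m p j : ℕ}

/-- the order of a multi-index -/
def dg (α : Fin p → ℕ) : ℕ := ∑ i, α i

/-- the multi-index of a word -/
def cnt (w : Fin m → Fin p) (i : Fin p) : ℕ := ∑ l, if w l = i then 1 else 0

theorem dg_cnt (w : Fin m → Fin p) : dg (cnt w) = m := by
  unfold dg cnt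
  rw [Finset.sum_comm]; simp

theorem count_ofFn (i : Fin p) : ∀ {m : ℕ} (w : Fin m → Fin p), (List.ofFn w).count i = cnt w i
  | 0, w => by simp [cnt]
  | m + 1, w => by
    rw [List.ofFn_succ, List.count_cons, count_ofFn, cnt, cnt, Fin.sum_univ_succ, add_comm]
    simp

/-- the standard word of a multi-index -/
def wd (α : Fin p → ℕ) : List (Fin p) := (List.ofFn fun i => List.replicate (α i) i).flatten

theorem count_wd (α : Fin p → ℕ) (i : Fin p) : (wd α).count i = α i := by
  rw [wd, List.count_flatten, List.map_ofFn, List.sum_ofFn, Finset.sum_eq_single i]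
  · simp
  · intro b _ hb; simp [List.count_replicate, hb]
  · simp

theorem length_wd (α : Fin p → ℕ) : (wd α).length = dg α := by
  simp [wd, dg, List.length_flatten, List.map_ofFn, List.sum_ofFn, Function.comp_def]

theorem jet_wd (f : W → H) (z : W) (ξ : Fin p → W) (α : Fin p → ℕ) :
    jet f z ξ α = dl ((wd α).map ξ) f z := by
  simp [jet, wd, List.map_flatten, List.map_ofFn, Function.comp_def]

theorem exists_word (α : Fin p → ℕ) : ∃ w : Fin (dg α) → Fin p, cnt w = α := by
  have h : ∀ (L : List (Fin p)) m, L.length = m → ∃ w : Fin m → Fin p, List.ofFn w = L := by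
    rintro L _ rfl; exact ⟨L.get, List.ofFn_get L⟩
  obtain ⟨w, hw⟩ := h _ _ (length_wd α)
  exact ⟨w, funext fun i => by rw [← count_ofFn, hw, count_wd]⟩

variable [CompleteSpace H]

theorem an_dl (ha : AnalyticAt ℂ f z) : ∀ L : List W, AnalyticAt ℂ (dl L f) z
  | [] => ha
  | ξ :: L => ((ContinuousLinearMap.apply ℂ H ξ).analyticAt _).comp (an_dl ha L).fderiv

theorem dl_perm {L L' : List W} (h : L.Perm L') : ∀ {z : W}, AnalyticAt ℂ f z →
    dl L f z = dl L' f z := by
  induction h with
  | nil => intro _ _; rfl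
  | cons x _ ih =>
    intro z ha
    have h1 : dl _ f =ᶠ[𝓝 z] dl _ f := ha.eventually_analyticAt.mono fun w hw => ih hw
    exact congrArg (fun L : W →L[ℂ] H => L x) (h1.fderiv_eq (𝕜 := ℂ))
  | swap x y L =>
    intro z ha
    have h1 := dl_eq [y, x] (an_dl ha L)
    have h2 := dl_eq [x, y] (an_dl ha L)
    have h3 := iD_perm (m := 2) (an_dl ha L) [x, y].get (Equiv.swap 0 1)
    have h4 : ([x, y].get ∘ (Equiv.swap (0 : Fin 2) 1)) = [y, x].get := by
      funext i; fin_cases i <;> rfl
    rw [h4] at h3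
    exact h1.trans (h3.trans h2.symm)
  | trans _ _ ih ih' => intro z ha; exact (ih ha).trans (ih' ha)

theorem dl_ofFn (ha : AnalyticAt ℂ f z) (v : Fin m → W) :
    dl (List.ofFn v) f z = iteratedFDeriv ℂ m f z v := by
  have h : ∀ (L : List W) m (e : L.length = m) (v : Fin m → W), List.ofFn v = L →
      dl L f z = iteratedFDeriv ℂ m f z v := by
    rintro L _ rfl v hv
    rw [dl_eq L ha]
    congr 1
    exact List.ofFn_injective (by rw [hv, List.ofFn_get])
  exact h _ _ List.length_ofFn v rfl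

theorem jet_eq (ha : AnalyticAt ℂ f z) (ξ : Fin p → W) (w : Fin m → Fin p) :
    jet f z ξ (cnt w) = iteratedFDeriv ℂ m f z fun l => ξ (w l) := by
  rw [jet_wd, ← dl_ofFn ha]
  have h : (wd (cnt w)).Perm (List.ofFn w) :=
    List.perm_iff_count.2 fun i => by rw [count_wd, count_ofFn]
  have := dl_perm (h.map ξ) ha
  rwa [List.map_ofFn] at this

theorem jet_zero (f : W → H) (z : W) (ξ : Fin p → W) : jet f z ξ 0 = f z := by
  have : wd (0 : Fin p → ℕ) = [] := List.length_eq_zero_iff.1 (by simp [length_wd, dg])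
  rw [jet_wd, this]; rfl

theorem jet_single (ha : AnalyticAt ℂ f z) (ξ : Fin p → W) (i : Fin p) :
    jet f z ξ (Pi.single i 1) = fderiv ℂ f z (ξ i) := by
  have : cnt (fun _ : Fin 1 => i) = Pi.single i 1 := by
    funext l; simp [cnt, Pi.single_apply, eq_comm]
  rw [← this, jet_eq ha, iteratedFDeriv_one_apply]

theorem an_jet {x : W' → W} {ξ : W' → Fin p → W} {z' : W'} (ha : AnalyticAt ℂ f (x z'))
    (hx : AnalyticAt ℂ x z') (hξ : ∀ i, AnalyticAt ℂ (fun w => ξ w i) z') (α : Fin p → ℕ) :
    AnalyticAt ℂ (fun w => jet f (x w) (ξ w) α) z' := by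
  obtain ⟨w, hw⟩ := exists_word α
  refine (an_iD_apply (v := fun y l => ξ y (w l)) ha hx fun l => hξ _).congr ?_
  filter_upwards [hx.continuousAt.eventually ha.eventually_analyticAt] with y hy
  rw [← jet_eq hy, hw]

theorem jet_clm [CompleteSpace H'] (T : H →L[ℂ] H') (ha : AnalyticAt ℂ f z) (ξ : Fin p → W)
    (α : Fin p → ℕ) : jet (fun w => T (f w)) z ξ α = T (jet f z ξ α) := by
  obtain ⟨w, hw⟩ := exists_word α
  have h1 : AnalyticAt ℂ (fun w => T (f w)) z := (T.analyticAt _).comp ha
  rw [← hw, jet_eq ha, jet_eq h1, iD_clm T ha]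

theorem jet_congr (ha : AnalyticAt ℂ f z) (e : f =ᶠ[𝓝 z] g) (ξ : Fin p → W) (α : Fin p → ℕ) :
    jet f z ξ α = jet g z ξ α := by
  obtain ⟨w, hw⟩ := exists_word α
  rw [← hw, jet_eq ha, jet_eq (ha.congr e), iD_congr e]

theorem Ord.jet_eq_zero (ha : AnalyticAt ℂ f z) (h : Ord k f z) (ξ : Fin p → W) {α : Fin p → ℕ}
    (hα : dg α < k) : jet f z ξ α = 0 := by
  obtain ⟨w, hw⟩ := exists_word α
  rw [← hw, jet_eq ha, h.iD_eq_zero ha hα]; rfl

/-- jets along a moving frame -/
theorem Ord.jet_mov (ha : AnalyticAt ℂ f z) {ξ : W → Fin p → W} (hξ : ContinuousAt ξ z)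
    {α : Fin p → ℕ} (h : Ord (k + dg α) f z) : Ord k (fun w => jet f w (ξ w) α) z := by
  obtain ⟨w, hw⟩ := exists_word α
  obtain ⟨C, hC, h1⟩ := (h.iD ha _ _).bound
  refine ord_of_bound (C := C * (‖ξ z‖ + 1) ^ dg α) ?_
  filter_upwards [h1, ha.eventually_analyticAt,
    hξ.norm.eventually (gt_mem_nhds (lt_add_one ‖ξ z‖))] with y h1 h2 h3
  have h4 := jet_eq h2 (ξ y) w
  rw [hw] at h4
  rw [h4]
  refine (ContinuousMultilinearMap.le_opNorm _ _).trans ?_
  have h5 : ∏ l, ‖ξ y (w l)‖ ≤ (‖ξ z‖ + 1) ^ dg α := by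
    refine (Finset.prod_le_prod (g := fun _ => ‖ξ z‖ + 1) (fun _ _ => norm_nonneg _)
      fun l _ => (norm_le_pi_norm _ _).trans h3.le).trans (by simp)
  refine (mul_le_mul h1 h5 (Finset.prod_nonneg fun _ _ => norm_nonneg _) (by positivity)).trans ?_
  exact le_of_eq (by ring)

/-- the linear map defined by a frame -/
def fr (ξ : Fin p → W) : Cm p →L[ℂ] W :=
  ∑ i, (ContinuousLinearMap.proj i : Cm p →L[ℂ] ℂ).smulRight (ξ i)

theorem fr_apply (ξ : Fin p → W) (s : Cm p) : fr ξ s = ∑ i, s i • ξ i := by simp [fr]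

theorem fr_single (ξ : Fin p → W) (i : Fin p) : fr ξ (Pi.single i 1) = ξ i := by
  simp [fr_apply, Pi.single_apply]

/-- vanishing of the jets along a frame -/
theorem ord_of_jet (ha : AnalyticAt ℂ f z) (ξ : Fin p → W) (h : ∀ α, dg α < k → jet f z ξ α = 0) :
    Ord k (fun s : Cm p => f (z + fr ξ s)) 0 := by
  have ha' : AnalyticAt ℂ f (z + fr ξ 0) := by simpa using ha
  refine ord_of_iD (ha'.comp_of_eq (analyticAt_const.add ((fr ξ).analyticAt _)) rfl) fun m hm => ?_
  refine ContinuousMultilinearMap.toMultilinearMap_injective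
    (Module.Basis.ext_multilinear (fun _ => Pi.basisFun ℂ (Fin p)) fun w => ?_)
  have := iD_aff (fr ξ) z ha' fun l => Pi.single (w l) 1
  simp only [fr_single, map_zero, add_zero] at this
  rw [← jet_eq ha, h _ (by rwa [dg_cnt])] at this
  simpa using this

/-! ### matrices -/

section mat
variable {ι V : Type} [Fintype ι] [DecidableEq ι] [NormedAddCommGroup V] [InnerProductSpace ℂ V]

theorem exists_mat (x y : ι → V) (r : ι → ι → Prop)
    (h : ∀ α, y α ∈ Submodule.span ℂ (x '' {β | r α β})) :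
    ∃ R : Matrix ι ι ℂ, (∀ α β, ¬ r α β → R α β = 0) ∧ y = act R x := by
  have h1 : ∀ α, ∃ c : ι → ℂ, (∀ β, ¬ r α β → c β = 0) ∧ y α = ∑ β, c β • x β := fun α => by
    obtain ⟨l, hl, hx⟩ := (Finsupp.mem_span_image_iff_linearCombination ℂ).1 (h α)
    refine ⟨l, fun β hβ => (Finsupp.mem_supported' ℂ l).1 hl β hβ, ?_⟩
    rw [← hx, Finsupp.linearCombination_apply, Finsupp.sum_fintype _ _ (by simp)]
  choose c hc using h1
  exact ⟨Matrix.of c, fun α β => (hc α).1 β, funext fun α => (hc α).2⟩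

theorem det_add_strict (wt : ι → ℕ) {S R : Matrix ι ι ℂ} (hS : ∀ α β, wt α < wt β → S α β = 0)
    (hR : ∀ α β, ¬ wt β < wt α → R α β = 0) : (S + R).det = S.det := by
  have h1 : S.BlockTriangular fun α => OrderDual.toDual (wt α) := fun α β h => hS α β h
  have h2 : (S + R).BlockTriangular fun α => OrderDual.toDual (wt α) := fun α β h => by
    have h' : wt α < wt β := h
    rw [Matrix.add_apply, hS α β h', hR α β (by omega), add_zero]
  rw [h1.det, h2.det]
  refine Finset.prod_congr rfl fun a _ => congrArg Matrix.det (Matrix.ext fun α β => ?_)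
  have h3 : wt α.1 = wt β.1 := OrderDual.toDual.injective (α.2.trans β.2.symm)
  simp [Matrix.toSquareBlock_def, hR α.1 β.1 (by omega)]

theorem act_mul (M N : Matrix ι ι ℂ) (x : ι → V) : act M (act N x) = act (M * N) x := by
  funext i
  simp only [act, Matrix.mul_apply, Finset.smul_sum, Finset.sum_smul, smul_smul]
  exact Finset.sum_comm

theorem act_add (M N : Matrix ι ι ℂ) (x : ι → V) : act (M + N) x = fun i => act M x i + act N x i := by
  funext i; simp [act, add_smul, Finset.sum_add_distrib]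

theorem act_diag (d : ι → ℂ) (x : ι → V) : act (Matrix.diagonal d) x = fun i => d i • x i := by
  funext i; simp [act, Matrix.diagonal_apply, ite_smul]

theorem act_one' (x : ι → V) : act 1 x = x := by
  rw [← Matrix.diagonal_one, act_diag]; simp

theorem sp_act (M : Matrix ι ι ℂ) (x : ι → V) : sp (act M x) ≤ sp x :=
  Submodule.span_le.2 (by
    rintro _ ⟨i, rfl⟩
    exact Submodule.sum_mem _ fun l _ => Submodule.smul_mem _ _ (Submodule.subset_span ⟨l, rfl⟩))

end mat

/-! ### change of frame -/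

/-- the sum of one coordinate over all the multi-indices -/
def NN (p j : ℕ) : ℕ := ∑ α : Idx p j, (j - dg α.1)

theorem sum_coord (i : Fin p) : ∑ α : Idx p j, α.1 i = NN p j := by
  have h0 : ∀ (α : Fin p → ℕ) (t : ℕ), dg (Function.update α i t) + α i = dg α + t := fun α t => by
    unfold dg
    rw [Finset.sum_update_of_mem (Finset.mem_univ i), ← Finset.add_sum_erase _ _ (Finset.mem_univ i),
      Finset.sdiff_singleton_eq_erase]
    ring
  let φ : Idx p j → Idx p j := fun α => ⟨Function.update α.1 i (j - dg α.1), by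
    have h1 := h0 α.1 (j - dg α.1)
    have h2 : dg α.1 ≤ j := α.2
    have h3 : α.1 i ≤ dg α.1 :=
      Finset.single_le_sum (f := α.1) (fun _ _ => Nat.zero_le _) (Finset.mem_univ i)
    show dg _ ≤ j
    omega⟩
  have hφ : Function.Involutive φ := fun α => by
    refine Subtype.ext ?_
    have h1 := h0 α.1 (j - dg α.1)
    have h2 : dg α.1 ≤ j := α.2
    have h3 : j - dg (Function.update α.1 i (j - dg α.1)) = α.1 i := by omega
    show Function.update (Function.update α.1 i _) i (j - dg (Function.update α.1 i _)) = α.1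
    rw [h3, Function.update_idem, Function.update_eq_self]
  rw [← Equiv.sum_comp hφ.toPerm]
  exact Finset.sum_congr rfl fun α _ => Function.update_self ..

theorem sum_dg : ∑ α : Idx p j, dg α.1 = p * NN p j := by
  unfold dg
  rw [Finset.sum_comm]; simp [sum_coord]

theorem NN_eq : (p + 1) * NN p j = j * Fintype.card (Idx p j) := by
  rw [add_mul, one_mul, ← sum_dg, NN, ← Finset.sum_add_distrib,
    Finset.sum_congr rfl (g := fun _ => j) fun α _ => Nat.add_sub_cancel' α.2]
  simp [mul_comm]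

section hil
variable {V : Type} [NormedAddCommGroup V] [InnerProductSpace ℂ V] [CompleteSpace V] {F : W → V}

/-- the family of the jets of order at most `j` -/
def jets (j : ℕ) (F : W → V) (z : W) (ξ : Fin p → W) : Idx p j → V := fun α => jet F z ξ α.1

/-- the action of a matrix on the frames -/
def mf (M : Matrix (Fin p) (Fin p) ℂ) (ξ : Fin p → W) : Fin p → W := fun k => ∑ l, M k l • ξ l

theorem jets_diag (ha : AnalyticAt ℂ F z) (d : Fin p → ℂ) (ξ : Fin p → W) :
    jets j F z (fun k => d k • ξ k) =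
      act (Matrix.diagonal fun α : Idx p j => ∏ i, d i ^ α.1 i) (jets j F z ξ) := by
  rw [act_diag]
  funext α
  obtain ⟨w, hw⟩ := exists_word α.1
  have h1 := jet_eq ha ξ w
  have h2 := jet_eq ha (fun k => d k • ξ k) w
  have h3 : ∏ l, d (w l) = ∏ i, d i ^ cnt w i := by
    simp only [cnt, ← Finset.prod_pow_eq_pow_sum]
    rw [Finset.prod_comm]
    refine Finset.prod_congr rfl fun l _ => ?_
    simp [pow_ite]
  rw [hw] at h1 h2 h3
  show jet _ _ _ _ = _ • jet _ _ _ _
  rw [h1, h2, ← h3, ContinuousMultilinearMap.map_smul_univ]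

theorem det_diag (d : Fin p → ℂ) :
    (Matrix.diagonal fun α : Idx p j => ∏ i, d i ^ α.1 i).det = (∏ i, d i) ^ NN p j := by
  rw [Matrix.det_diagonal, Finset.prod_comm, ← Finset.prod_pow]
  exact Finset.prod_congr rfl fun i _ => by rw [Finset.prod_pow_eq_pow_sum, sum_coord]

theorem jets_transv (ha : AnalyticAt ℂ F z) {i i' : Fin p} (hi : i ≠ i') (c : ℂ) (ξ : Fin p → W)
    (α : Idx p j) : jets j F z (mf (Matrix.transvection i i' c) ξ) α - jets j F z ξ α ∈
      Submodule.span ℂ (jets j F z ξ '' {β | dg α.1 = dg β.1 ∧ β.1 i < α.1 i}) := by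
  obtain ⟨w, hw⟩ := exists_word α.1
  have h1 := jet_eq ha ξ w
  have h2 := jet_eq ha (mf (Matrix.transvection i i' c) ξ) w
  rw [hw] at h1 h2
  have h3 : (fun l => mf (Matrix.transvection i i' c) ξ (w l)) =
      (fun l => ξ (w l)) + fun l => if w l = i then c • ξ i' else 0 := by
    funext l
    by_cases h : w l = i
    · simp [mf, Matrix.transvection, add_smul, Finset.sum_add_distrib, Matrix.one_apply, ite_smul, h,
        Matrix.single_apply]
    · simp [mf, Matrix.transvection, add_smul, Finset.sum_add_distrib, Matrix.one_apply, ite_smul, h,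
        Matrix.single_apply, Ne.symm h]
  show jet _ _ _ _ - jet _ _ _ _ ∈ _
  rw [h1, h2, h3, ContinuousMultilinearMap.map_add_univ,
    ← Finset.add_sum_erase _ _ (Finset.mem_univ Finset.univ), Finset.piecewise_univ,
    add_sub_cancel_left]
  refine Submodule.sum_mem _ fun S hS => ?_
  obtain ⟨l₀, hl₀⟩ : ∃ l, l ∉ S := by
    by_contra h
    exact (Finset.mem_erase.1 hS).1 (Finset.eq_univ_of_forall fun l => by
      by_contra h'; exact h ⟨l, h'⟩)
  by_cases h : ∃ l, l ∉ S ∧ w l ≠ i
  · obtain ⟨l, h1, h2⟩ := h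
    rw [ContinuousMultilinearMap.map_coord_zero _ l (by simp [Finset.piecewise, h1, h2])]
    exact Submodule.zero_mem _
  · have h' : ∀ l, l ∉ S → w l = i := fun l hl => by by_contra h2; exact h ⟨l, hl, h2⟩
    let w' : Fin (dg α.1) → Fin p := fun l => if l ∈ S then w l else i'
    have h4 : (S.piecewise (fun l => ξ (w l)) fun l => if w l = i then c • ξ i' else 0) =
        fun l => (if l ∈ S then 1 else c) • ξ (w' l) := by
      funext l
      by_cases hl : l ∈ S
      · simp [Finset.piecewise, hl, w']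
      · simp [Finset.piecewise, hl, w', h' l hl]
    rw [h4, ContinuousMultilinearMap.map_smul_univ, ← jet_eq ha]
    refine Submodule.smul_mem _ _ (Submodule.subset_span ⟨⟨cnt w', (dg_cnt w').le.trans α.2⟩,
      ⟨(dg_cnt w').symm, ?_⟩, rfl⟩)
    have h5 : cnt w' i < cnt w i := by
      refine Finset.sum_lt_sum (fun l _ => ?_) ⟨l₀, Finset.mem_univ _, ?_⟩
      · by_cases hl : l ∈ S
        · simp [w', hl]
        · simp [w', hl, hi.symm]
      · simp [w', hl₀, hi.symm, h' l₀ hl₀]
    rw [hw] at h5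
    exact h5

theorem jets_mf (ha : AnalyticAt ℂ F z) (M : Matrix (Fin p) (Fin p) ℂ) : ∀ ξ : Fin p → W,
    ∃ S : Matrix (Idx p j) (Idx p j) ℂ, (∀ α β, dg α.1 ≠ dg β.1 → S α β = 0) ∧
      S.det = M.det ^ NN p j ∧ jets j F z (mf M ξ) = act S (jets j F z ξ) := by
  refine Matrix.diagonal_transvection_induction (fun M => ∀ ξ : Fin p → W,
    ∃ S : Matrix (Idx p j) (Idx p j) ℂ, (∀ α β, dg α.1 ≠ dg β.1 → S α β = 0) ∧
      S.det = M.det ^ NN p j ∧ jets j F z (mf M ξ) = act S (jets j F z ξ)) M ?_ ?_ ?_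
  · intro d _ ξ
    refine ⟨_, fun α β h => Matrix.diagonal_apply_ne _ fun e => h (by rw [e]), ?_,
      (congrArg _ ?_).trans (jets_diag ha d ξ)⟩
    · rw [det_diag, Matrix.det_diagonal]
    · funext k; simp [mf, Matrix.diagonal_apply, ite_smul]
  · intro t ξ
    obtain ⟨R, hR, e⟩ := exists_mat _ _ _ (jets_transv (j := j) ha t.hij t.c ξ)
    refine ⟨1 + R, fun α β h => ?_, ?_, ?_⟩
    · rw [Matrix.add_apply, hR α β fun h' => h h'.1, Matrix.one_apply_ne fun e => h (by rw [e]),
        add_zero]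
    · rw [det_add_strict (fun α => α.1 t.i) (fun α β h => Matrix.one_apply_ne fun e => by
        rw [e] at h; exact lt_irrefl _ h) fun α β h => hR α β fun h' => h h'.2]
      simp
    · rw [act_add, act_one', ← e]
      funext α
      exact (add_sub_cancel _ _).symm
  · intro A B hA hB ξ
    obtain ⟨S, h1, h2, h3⟩ := hB ξ
    obtain ⟨S', h1', h2', h3'⟩ := hA (mf B ξ)
    refine ⟨S' * S, fun α β h => ?_, by rw [Matrix.det_mul, Matrix.det_mul, h2, h2', mul_pow], ?_⟩
    · rw [Matrix.mul_apply]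
      refine Finset.sum_eq_zero fun γ _ => ?_
      by_cases h' : dg α.1 = dg γ.1
      · rw [h1 γ β (h' ▸ h), mul_zero]
      · rw [h1' α γ h', zero_mul]
    · rw [← act_mul, ← h3, ← h3']
      congr 1
      funext k
      simp only [mf, Matrix.mul_apply, Finset.smul_sum, Finset.sum_smul, smul_smul]
      exact Finset.sum_comm

end hil

end Vale.Agent.P284Z.E
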