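import Vale.Agent.P284Z.Defs
import Mathlib.Analysis.Complex.Liouville
import Mathlib.Analysis.Analytic.IteratedFDeriv
import Mathlib.Analysis.Analytic.CPolynomial
import Mathlib.Analysis.Calculus.MeanValue

/-!
# P284Z, block E: order of vanishing and iterated derivatives
-/

set_option linter.all false

open scoped ContDiff Topology
open Filter Set Metric Asymptotics

noncomputable section

namespace Vale.Agent.P284Z.E

variable {W W' H H' : Type} [NormedAddCommGroup W] [NormedSpace ℂ W] [NormedAddCommGroup W']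
  [NormedSpace ℂ W'] [NormedAddCommGroup H] [NormedSpace ℂ H] [NormedAddCommGroup H']
  [NormedSpace ℂ H'] {f g : W → H} {z : W} {k m : ℕ}

/-- `f` vanishes to order `k` at `z` -/
def Ord (k : ℕ) (f : W → H) (z : W) : Prop := f =O[𝓝 z] fun w => ‖w - z‖ ^ k

theorem Ord.bound (h : Ord k f z) : ∃ C ≥ (0 : ℝ), ∀ᶠ w in 𝓝 z, ‖f w‖ ≤ C * ‖w - z‖ ^ k := by
  obtain ⟨C, hC, h⟩ := h.exists_nonneg
  exact ⟨C, hC, h.bound.mono fun w hw => by simpa using hw⟩

theorem ord_of_bound {C : ℝ} (h : ∀ᶠ w in 𝓝 z, ‖f w‖ ≤ C * ‖w - z‖ ^ k) : Ord k f z :=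
  IsBigO.of_bound C (h.mono fun w hw => by simpa using hw)

theorem ord_zero (h : ContinuousAt f z) : Ord 0 f z := by
  refine ord_of_bound (C := ‖f z‖ + 1) ?_
  filter_upwards [h.norm.eventually (gt_mem_nhds (lt_add_one ‖f z‖))] with w hw
  simpa using hw.le

theorem Ord.congr (h : Ord k f z) (e : f =ᶠ[𝓝 z] g) : Ord k g z := IsBigO.congr' h e EventuallyEq.rfl

theorem Ord.mono (h : Ord k f z) (hm : m ≤ k) : Ord m f z := by
  obtain ⟨C, hC, h⟩ := h.bound
  refine ord_of_bound (C := C) ?_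
  filter_upwards [h, ball_mem_nhds z one_pos] with w hw h1
  refine hw.trans (mul_le_mul_of_nonneg_left ?_ hC)
  exact pow_le_pow_of_le_one (norm_nonneg _) (mem_ball_iff_norm.1 h1).le hm

theorem Ord.eq_zero (h : Ord (k + 1) f z) : f z = 0 := by
  obtain ⟨C, -, h⟩ := h.bound
  simpa using h.self_of_nhds

theorem Ord.add (h : Ord k f z) (h' : Ord k g z) : Ord k (fun w => f w + g w) z := IsBigO.add h h'

theorem Ord.smul {t : W → ℂ} (ht : Ord m t z) (h : Ord k f z) :
    Ord (m + k) (fun w => t w • f w) z := by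
  have := IsBigO.smul ht h
  simpa [Ord, pow_add] using this

theorem ord_sub (h : DifferentiableAt ℂ f z) : Ord 1 (fun w => f w - f z) z := by
  have := h.hasFDerivAt.isBigO_sub
  simpa [Ord] using this

theorem Ord.comp {u : W' → W} {z' : W'} (h : Ord k f z) (hu : DifferentiableAt ℂ u z')
    (h0 : u z' = z) : Ord k (fun w => f (u w)) z' := by
  have h1 : Tendsto u (𝓝 z') (𝓝 z) := h0 ▸ hu.continuousAt.tendsto
  refine (IsBigO.comp_tendsto h h1).trans ?_
  have h2 : (fun w => ‖u w - z‖) =O[𝓝 z'] fun w => ‖w - z'‖ := by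
    have := hu.hasFDerivAt.isBigO_sub
    rw [h0] at this
    exact this.norm_norm
  exact h2.pow k

theorem Ord.fderiv [CompleteSpace H] (ha : AnalyticAt ℂ f z) (h : Ord (k + 1) f z) : Ord k (fderiv ℂ f) z := by
  obtain ⟨C, hC, h⟩ := h.bound
  obtain ⟨δ, hδ, hb⟩ := Metric.eventually_nhds_iff_ball.1 (h.and ha.eventually_analyticAt)
  refine ord_of_bound (C := C * 2 ^ (k + 1)) ?_
  filter_upwards [ball_mem_nhds z (show 0 < δ / 2 by positivity)] with w hw
  have hw' : ‖w - z‖ < δ / 2 := mem_ball_iff_norm.1 hw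
  have key : ∀ ρ, ‖w - z‖ < ρ → ρ < δ / 2 → ‖_root_.fderiv ℂ f w‖ ≤ C * 2 ^ (k + 1) * ρ ^ k := by
    intro ρ h1 h2
    have hρ : 0 < ρ := (norm_nonneg _).trans_lt h1
    refine ContinuousLinearMap.opNorm_le_of_unit_norm (by positivity) fun v hv => ?_
    have hm : ∀ ζ : ℂ, ‖ζ‖ ≤ ρ → ‖w + ζ • v - z‖ ≤ 2 * ρ := fun ζ hζ => by
      calc ‖w + ζ • v - z‖ = ‖(w - z) + ζ • v‖ := by congr 1; abel
        _ ≤ ‖w - z‖ + ‖ζ • v‖ := norm_add_le _ _
        _ ≤ 2 * ρ := by rw [norm_smul, hv]; linarith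
    have hmb : ∀ ζ : ℂ, ‖ζ‖ ≤ ρ → w + ζ • v ∈ ball z δ := fun ζ hζ =>
      mem_ball_iff_norm.2 ((hm ζ hζ).trans_lt (by linarith))
    have hd : ∀ ζ : ℂ, ‖ζ‖ ≤ ρ → HasDerivAt (fun ζ : ℂ => f (w + ζ • v))
        (_root_.fderiv ℂ f (w + ζ • v) v) ζ := fun ζ hζ => by
      have h3 : HasDerivAt (fun ζ : ℂ => w + ζ • v) v ζ := by
        simpa using ((hasDerivAt_id ζ).smul_const v).const_add w
      exact (hb _ (hmb ζ hζ)).2.differentiableAt.hasFDerivAt.comp_hasDerivAt ζ h3
    have hdc : DiffContOnCl ℂ (fun ζ : ℂ => f (w + ζ • v)) (ball 0 ρ) := by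
      refine DifferentiableOn.diffContOnCl fun ζ hζ => (hd ζ ?_).differentiableAt.differentiableWithinAt
      simpa using closure_ball_subset_closedBall hζ
    have h4 := Complex.norm_deriv_le_of_forall_mem_sphere_norm_le (C := C * (2 * ρ) ^ (k + 1)) hρ hdc
      fun ζ hζ => by
        have hζ' : ‖ζ‖ ≤ ρ := by simpa using sphere_subset_closedBall hζ
        exact (hb _ (hmb ζ hζ')).1.trans (mul_le_mul_of_nonneg_left
          (pow_le_pow_left₀ (norm_nonneg _) (hm ζ hζ') _) hC)
    rw [(hd 0 (by simpa using hρ.le)).deriv] at h4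
    simp only [zero_smul, add_zero] at h4
    refine h4.trans (le_of_eq ?_)
    field_simp
    ring
  have hc : Tendsto (fun ρ : ℝ => C * 2 ^ (k + 1) * ρ ^ k) (𝓝[>] ‖w - z‖)
      (𝓝 (C * 2 ^ (k + 1) * ‖w - z‖ ^ k)) :=
    ((continuous_const.mul (continuous_pow k)).tendsto _).mono_left nhdsWithin_le_nhds
  refine ge_of_tendsto hc ?_
  filter_upwards [Ioo_mem_nhdsGT hw'] with ρ hρ using key ρ hρ.1 hρ.2

variable [CompleteSpace H]

theorem an_iD (ha : AnalyticAt ℂ f z) (m : ℕ) : AnalyticAt ℂ (iteratedFDeriv ℂ m f) z :=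
  AnalyticOnNhd.iteratedFDeriv (s := {z}) (fun x hx => by rw [mem_singleton_iff.1 hx]; exact ha) m z rfl

theorem Ord.iD (ha : AnalyticAt ℂ f z) : ∀ m k, Ord (k + m) f z → Ord k (iteratedFDeriv ℂ m f) z
  | 0, k, h => by
    obtain ⟨C, -, h⟩ := h.bound
    exact ord_of_bound (C := C) (h.mono fun w hw => by simpa using hw)
  | m + 1, k, h => by
    have h1 := Ord.iD ha m (k + 1) (by rwa [add_assoc, add_comm 1 m])
    obtain ⟨C, -, h2⟩ := (h1.fderiv (an_iD ha m)).bound
    exact ord_of_bound (C := C) (h2.mono fun w hw => by rwa [norm_fderiv_iteratedFDeriv] at hw)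

theorem Ord.iD_eq_zero (ha : AnalyticAt ℂ f z) (h : Ord k f z) (hm : m < k) :
    iteratedFDeriv ℂ m f z = 0 :=
  (Ord.iD ha m (0 + 1) (h.mono (by omega))).eq_zero

theorem ord_of_iD (ha : AnalyticAt ℂ f z) (h : ∀ m < k, iteratedFDeriv ℂ m f z = 0) : Ord k f z := by
  obtain ⟨p, r, hp⟩ := ha
  have h1 := hp.hasFPowerSeriesAt.isBigO_sub_partialSum_pow k
  have h2 : ∀ y, p.partialSum k y = 0 := fun y => by
    refine Finset.sum_eq_zero fun m hm => ?_
    have := hp.factorial_smul y m
    rw [h m (Finset.mem_range.1 hm)] at this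
    have h3 : ((m.factorial : ℕ) : ℂ) • p m (fun _ => y) = 0 := by
      rw [Nat.cast_smul_eq_nsmul]; simpa using this
    exact (smul_eq_zero.1 h3).resolve_left (by exact_mod_cast m.factorial_ne_zero)
  have h4 : Tendsto (fun w => w - z) (𝓝 z) (𝓝 0) := by
    simpa using (continuous_sub_right z).tendsto z
  have := h1.comp_tendsto h4
  simpa [Ord, Function.comp_def, h2] using this

/-- the top order term of a composition -/
theorem Ord.top {u : W' → W} {t : W' → ℂ} {z' : W'} (ha : AnalyticAt ℂ f z) (h : Ord k f z)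
    (hu : AnalyticAt ℂ u z') [CompleteSpace W] (h0 : u z' = z) (ht : AnalyticAt ℂ t z') :
    Ord (k + 1) (fun w => t w • f (u w) - t z' • f (z + _root_.fderiv ℂ u z' (w - z'))) z' := by
  set A := _root_.fderiv ℂ u z' with hA
  have hv : AnalyticAt ℂ (fun w => z + A (w - z')) z' :=
    analyticAt_const.add ((A.analyticAt _).comp (analyticAt_id.sub analyticAt_const))
  have h1 : Ord (1 + k) (fun w => (t w - t z') • f (u w)) z' :=
    (ord_sub ht.differentiableAt).smul (h.comp hu.differentiableAt h0)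
  have h2 : Ord 2 (fun w => u w - (z + A (w - z'))) z' := by
    refine ord_of_iD (hu.sub hv) fun m hm => ?_
    have hd : HasFDerivAt (fun w => u w - (z + A (w - z'))) (0 : W' →L[ℂ] W) z' := by
      have := hu.differentiableAt.hasFDerivAt.sub
        ((A.hasFDerivAt.comp z' ((hasFDerivAt_id z').sub_const z')).const_add z)
      rw [ContinuousLinearMap.comp_id, ← hA, sub_self] at this
      exact this
    interval_cases m
    · ext v; simp [h0]
    · ext v; rw [iteratedFDeriv_one_apply]; erw [hd.fderiv]; simp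
  have h3 : Ord (k - 1) (_root_.fderiv ℂ f) z := by
    cases k with
    | zero => exact ord_zero ha.fderiv.continuousAt
    | succ k => exact h.fderiv ha
  obtain ⟨C, hC, h3⟩ := h3.bound
  obtain ⟨δ, hδ, hb⟩ := Metric.eventually_nhds_iff_ball.1 (h3.and ha.eventually_analyticAt)
  obtain ⟨C₂, hC₂, h2⟩ := h2.bound
  obtain ⟨C₃, hC₃, h4⟩ := (ord_sub hu.differentiableAt).bound
  obtain ⟨C₄, hC₄, h5⟩ := (ord_sub hv.differentiableAt).bound
  have h6 : Ord (k + 1) (fun w => f (u w) - f (z + A (w - z'))) z' := by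
    refine Ord.mono (k := k - 1 + 2) (ord_of_bound (C := C * (C₃ + C₄) ^ (k - 1) * C₂) ?_) (by omega)
    have h7 : Tendsto (fun w => (C₃ + C₄) * ‖w - z'‖) (𝓝 z') (𝓝 0) := by
      have : Continuous fun w => (C₃ + C₄) * ‖w - z'‖ := by fun_prop
      simpa using this.tendsto z'
    filter_upwards [h2, h4, h5, h7.eventually (gt_mem_nhds hδ)] with w h2 h4 h5 h7
    set ρ := (C₃ + C₄) * ‖w - z'‖ with hρ
    simp only [h0, pow_one, sub_self, map_zero, add_zero, add_sub_cancel_left] at h4 h5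
    have hn := norm_nonneg (w - z')
    have hs : closedBall z ρ ⊆ ball z δ := closedBall_subset_ball h7
    have := (convex_closedBall z ρ).norm_image_sub_le_of_norm_fderiv_le (𝕜 := ℂ) (f := f)
      (C := C * ρ ^ (k - 1)) (x := z + A (w - z')) (y := u w)
      (fun x hx => (hb x (hs hx)).2.differentiableAt)
      (fun x hx => (hb x (hs hx)).1.trans (mul_le_mul_of_nonneg_left
        (pow_le_pow_left₀ (norm_nonneg _) (mem_closedBall_iff_norm.1 hx) _) hC))
      (mem_closedBall_iff_norm.2 (by rw [add_sub_cancel_left]; nlinarith))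
      (mem_closedBall_iff_norm.2 (by nlinarith))
    refine this.trans ((mul_le_mul_of_nonneg_left h2 (by positivity)).trans (le_of_eq ?_))
    rw [hρ, mul_pow]; ring
  have h8 := (ord_zero (f := fun _ : W' => t z') continuousAt_const).smul h6
  rw [zero_add] at h8
  rw [add_comm] at h1
  refine (h1.add h8).congr (Eventually.of_forall fun w => ?_)
  simp only [sub_smul, smul_sub]; abel

theorem dl_eq (L : List W) : ∀ {z : W}, AnalyticAt ℂ f z →
    dl L f z = iteratedFDeriv ℂ L.length f z L.get := by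
  induction L with
  | nil => intro z _; simp [dl]
  | cons ξ L ih =>
    intro z ha
    have h1 : dl L f =ᶠ[𝓝 z] fun w => iteratedFDeriv ℂ L.length f w L.get :=
      ha.eventually_analyticAt.mono fun w hw => ih hw
    show _root_.fderiv ℂ (dl L f) z ξ = iteratedFDeriv ℂ (L.length + 1) f z (ξ :: L).get
    rw [h1.fderiv_eq, iteratedFDeriv_succ_apply_left,
      fderiv_continuousMultilinear_apply_const_apply (an_iD ha _).differentiableAt]
    rfl

theorem iD_perm (ha : AnalyticAt ℂ f z) (v : Fin m → W) (σ : Equiv.Perm (Fin m)) :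
    iteratedFDeriv ℂ m f z (v ∘ σ) = iteratedFDeriv ℂ m f z v :=
  ha.contDiffAt.iteratedFDeriv_comp_perm v σ

theorem iD_clm [CompleteSpace H'] (T : H →L[ℂ] H') (ha : AnalyticAt ℂ f z) (v : Fin m → W) :
    iteratedFDeriv ℂ m (fun w => T (f w)) z v = T (iteratedFDeriv ℂ m f z v) := by
  have := T.iteratedFDeriv_comp_left (x := z) (n := ω) (i := m) ha.contDiffAt le_top
  exact congrArg (fun L => L v) this

theorem iD_aff (A : W' →L[ℂ] W) (c : W) {z' : W'} (ha : AnalyticAt ℂ f (c + A z'))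
    (v : Fin m → W') : iteratedFDeriv ℂ m (fun w => f (c + A w)) z' v =
      iteratedFDeriv ℂ m f (c + A z') fun i => A (v i) := by
  induction m generalizing z' with
  | zero => simp
  | succ m ih =>
    have hc : AnalyticAt ℂ (fun w => c + A w) z' := analyticAt_const.add (A.analyticAt _)
    have h1 : (fun w => iteratedFDeriv ℂ m (fun w => f (c + A w)) w (Fin.tail v)) =ᶠ[𝓝 z']
        fun w => iteratedFDeriv ℂ m f (c + A w) fun i => A (Fin.tail v i) :=
      (hc.continuousAt.eventually ha.eventually_analyticAt).mono fun w hw => ih hw _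
    have h2 : AnalyticAt ℂ (fun w => f (c + A w)) z' := ha.comp_of_eq hc rfl
    rw [iteratedFDeriv_succ_apply_left, iteratedFDeriv_succ_apply_left,
      ← fderiv_continuousMultilinear_apply_const_apply (an_iD h2 _).differentiableAt, h1.fderiv_eq,
      ← fderiv_continuousMultilinear_apply_const_apply (an_iD ha _).differentiableAt]
    have h3 : DifferentiableAt ℂ (fun y => iteratedFDeriv ℂ m f y fun i => A (Fin.tail v i))
        (c + A z') := (an_iD ha m).differentiableAt.continuousMultilinear_apply_const _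
    have h4 := (h3.hasFDerivAt.comp z' (A.hasFDerivAt.const_add c)).fderiv
    exact congrArg (fun L => L (v 0)) h4

theorem iD_comb (hf : AnalyticAt ℂ f z) (hg : AnalyticAt ℂ g z) (c : ℂ) (v : Fin m → W) :
    iteratedFDeriv ℂ m (fun w => f w - c • g w) z v =
      iteratedFDeriv ℂ m f z v - c • iteratedFDeriv ℂ m g z v := by
  have hc : AnalyticAt ℂ (fun w => c • g w) z := by fun_prop
  have h1 := iteratedFDeriv_sub_apply (i := m) (x := z) (hf.contDiffAt (n := m)) (hc.contDiffAt (n := m))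
  have h2 := iteratedFDeriv_const_smul_apply' (i := m) (x := z) (a := c) (hg.contDiffAt (n := m))
  have h3 : iteratedFDeriv ℂ m (fun w => f w - c • g w) z =
      iteratedFDeriv ℂ m f z - c • iteratedFDeriv ℂ m g z := by rw [← h2]; exact h1
  rw [h3]; rfl

theorem iD_congr (e : f =ᶠ[𝓝 z] g) : iteratedFDeriv ℂ m f z = iteratedFDeriv ℂ m g z :=
  (e.iteratedFDeriv ℂ m).self_of_nhds

/-- joint analyticity in the point and in the vectors -/
theorem an_iD_apply {x : W' → W} {v : W' → Fin m → W} {z' : W'} (ha : AnalyticAt ℂ f (x z'))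
    (hx : AnalyticAt ℂ x z') (hv : ∀ i, AnalyticAt ℂ (fun w => v w i) z') :
    AnalyticAt ℂ (fun w => iteratedFDeriv ℂ m f (x w) (v w)) z' := by
  have h1 := (ContinuousLinearMap.id ℂ (ContinuousMultilinearMap ℂ (fun _ : Fin m => W) H)
    ).analyticAt_uncurry_of_multilinear (x := (iteratedFDeriv ℂ m f (x z'), v z'))
  exact h1.comp_of_eq (((an_iD ha m).comp_of_eq hx rfl).prod (analyticAt_pi_iff.2 hv)) rfl

end Vale.Agent.P284Z.E
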