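import Vale.Agent.P284Z.E.Bs
import Vale.Agent.P284Z.F0.Levi
import Vale.Agent.P284Z.S.Three

/-!
# P284Z, block E: regularity of the level `j` functions, the pole
-/

set_option linter.all false

open scoped ContDiff Topology ComplexOrder
open Filter Set Metric Asymptotics

noncomputable section

namespace Vale.Agent.P284Z.E

open Ang Vale.Agent.P272.K

variable {n : ℕ} {Γ E : Type} [Group Γ] [TopologicalSpace E] [MulAction Γ E] {C : Cov n Γ E}
  {P : Pol C} {J : IX Γ} {m p j k : ℕ} {γ γ' g : Γ} {a b : C.I} {z z' : Cm n} {x y : E}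
  {V : HSec P J m} {ξ ξ' : Fin p → Cm n}

theorem ρ_cont (C : Cov n Γ E) (a : C.I) : ContinuousOn (C.ρ a) (C.B 4 a) :=
  fun z hz => (C.ρ_sm a z hz).continuousAt.continuousWithinAt

theorem ρ_psh (C : Cov n Γ E) (a : C.I) : Psh (C.ρ a) (C.B 4 a) :=
  psh_of_cHess fun z hz => ⟨(C.ρ_sm a z hz).of_le (by norm_cast), (C.ρ_pos a z hz).posSemidef⟩

theorem ρ_bdd (C : Cov n Γ E) : ∃ M ≥ (0 : ℝ), ∀ a, ∀ z ∈ C.cB (7 / 2) a, |C.ρ a z| ≤ M := by
  have h : ∀ a, ∃ M, ∀ z ∈ C.cB (7 / 2) a, ‖C.ρ a z‖ ≤ M := fun a =>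
    (C.isCompact_cB _ a).exists_bound_of_continuousOn ((ρ_cont C a).mono (C.cB_sub_B (by norm_num) a))
  choose M hM using h
  exact ⟨∑ a, |M a|, Finset.sum_nonneg fun _ _ => abs_nonneg _, fun a z hz => (hM a z hz).trans
    ((le_abs_self _).trans (Finset.single_le_sum (f := fun a => |M a|) (fun _ _ => abs_nonneg _)
      (Finset.mem_univ a)))⟩

section gen
variable {W : Type} [NormedAddCommGroup W] [NormedSpace ℂ W] {S u : W → ℝ} {O : Set W}

theorem lpsh_rt (hS : LPsh S O) (hu : Psh u O) (hc : ContinuousOn u O) {e μ β A : ℝ} (hμ : 0 < μ)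
    (hβ : 0 ≤ β) (h : e * β ≤ A) {f : W → ℝ}
    (hf : ∀ w ∈ O, f w = (S w * Real.exp (-(e * u w)) / μ) ^ β * Real.exp (A * u w)) : LPsh f O := by
  refine (((hS.rpow hβ).mul_exp (hu.const_mul (sub_nonneg.2 h))
    ((LB.of_cont hc).const_mul (sub_nonneg.2 h))).const_mul
      (Real.rpow_nonneg (inv_nonneg.2 hμ.le) β)).congr fun w hw => ?_
  have h1 := hS.1 w hw
  show f w = μ⁻¹ ^ β * (S w ^ β * Real.exp ((A - e * β) * u w))
  rw [hf w hw, div_eq_mul_inv, Real.mul_rpow (mul_nonneg h1 (Real.exp_pos _).le) (inv_nonneg.2 hμ.le),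
    Real.mul_rpow h1 (Real.exp_pos _).le, ← Real.exp_mul, sub_mul, sub_eq_add_neg, Real.exp_add]
  rw [show -(e * u w) * β = -(e * β * u w) by ring]
  ring

theorem schwarz {f : W → ℝ} (hf : LPsh f O) {z : W} {R B c s K : ℝ} (hR : 0 < R) (hB : 0 < B)
    (hc : 0 < c) (hs : 2 * c ≤ s) (hO : closedBall z R ⊆ O) (hb : ∀ w ∈ closedBall z R, f w ≤ B)
    (hl : ∀ᶠ w in 𝓝 z, f w ≤ K * ‖w - z‖ ^ s) {w : W} (hw : w ∈ closedBall z R) :
    f w ≤ B / R ^ c * ‖w - z‖ ^ c := by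
  rcases (norm_nonneg (w - z)).eq_or_lt with h0 | h0
  · have h1 : w = z := sub_eq_zero.1 (norm_eq_zero.1 h0.symm)
    have := hl.self_of_nhds
    rw [h1, sub_self, norm_zero, Real.zero_rpow hc.ne', mul_zero]
    rwa [sub_self, norm_zero, Real.zero_rpow (by linarith), mul_zero] at this
  obtain ⟨δ, hδ, hl⟩ := Metric.eventually_nhds_iff_ball.1 hl
  have hA : 0 < B / R ^ c := by positivity
  have h1 : Tendsto (fun r : ℝ => |K| * r ^ c) (𝓝[>] 0) (𝓝 0) := by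
    have := ((Real.continuousAt_rpow_const 0 c (Or.inr hc.le)).tendsto.const_mul |K|).mono_left
      (nhdsWithin_le_nhds (s := Ioi 0))
    simpa [Real.zero_rpow hc.ne'] using this
  obtain ⟨r, h2, h3, h4, h5⟩ := ((h1.eventually (gt_mem_nhds hA)).and
    ((eventually_mem_set.2 (Ioo_mem_nhdsGT h0)).and ((eventually_mem_set.2 (Ioo_mem_nhdsGT hδ)).and
      (eventually_mem_set.2 (Ioo_mem_nhdsGT one_pos))))).exists
  refine S.three hf h3.1 hA hO (fun v hv => ?_) (fun v hv => ?_) h3.2.le (mem_closedBall_iff_norm.1 hw)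
  · refine (hl v (mem_ball_iff_norm.2 (hv ▸ h4.2))).trans ?_
    rw [hv]
    calc K * r ^ s ≤ |K| * r ^ (c + c) := mul_le_mul (le_abs_self _)
          (Real.rpow_le_rpow_of_exponent_ge h3.1 h5.2.le (by linarith)) (Real.rpow_nonneg h3.1.le _)
          (abs_nonneg _)
      _ = |K| * r ^ c * r ^ c := by rw [Real.rpow_add h3.1, mul_assoc]
      _ ≤ _ := mul_le_mul_of_nonneg_right h2.le (Real.rpow_nonneg h3.1.le _)
  · rw [div_mul_cancel₀ _ (by positivity)]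
    exact hb v (mem_closedBall_iff_norm.2 hv.le)

theorem cd_of_an {H : Type} [NormedAddCommGroup H] [NormedSpace ℂ H] [NormedSpace ℝ H]
    [IsScalarTower ℝ ℂ H] [CompleteSpace H] {f : W → H} {w : W} (h : AnalyticAt ℂ f w) : ContDiffAt ℝ ∞ f w :=
  h.contDiffAt.restrict_scalars ℝ

end gen

theorem famx_an (γ : Γ) (hz : z ∈ C.B 4 a) (I : Fin p → Fin n) (α : Idx p j) :
    AnalyticAt ℂ (fun w => fam V j γ a w (xf P a w I) α) z :=
  fam_an V γ hz analyticAt_id (xf_an P hz I) α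

theorem famq_an (γ : Γ) {q : Cm n × (Fin p → Cm n)} (hq : q.1 ∈ C.B 4 a) (α : Idx p j) :
    AnalyticAt ℂ (fun q : Cm n × (Fin p → Cm n) => fam V j γ a q.1 q.2 α) q :=
  fam_an V γ hq analyticAt_fst (fun i => ((ContinuousLinearMap.proj i :
    (Fin p → Cm n) →L[ℂ] Cm n).analyticAt _).comp analyticAt_snd) α

theorem exp_cd (hz : z ∈ C.B 4 a) (e : ℝ) : ContDiffAt ℝ ∞ (fun w => Real.exp (-(e * C.ρ a w))) z :=
  (contDiffAt_const.mul (C.ρ_sm a z hz)).neg.exp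

theorem F0_cd (hV : V.VD p) (hj : 1 ≤ j) (γ : Γ) (hz : z ∈ C.B 4 a) :
    ContDiffAt ℝ ∞ (fun w => F0 V p j (C.pt γ a w)) z :=
  ((ContDiffAt.sum fun I _ => contDiffAt_G fun α => cd_of_an (famx_an 1 hz I α)).mul
    (exp_cd hz _)).congr_of_eventuallyEq
    (((C.isOpen_B 4 a).eventually_mem hz).mono fun w hw => F0_eq hV hj γ hw)

theorem W0_cd (hV : V.VD p) (hj : 1 ≤ j) (γ γ' : Γ) {q : Cm n × Cm n} (hq : q ∈ C.B 4 a ×ˢ C.B 4 b) :
    ContDiffAt ℝ ∞ (fun q : Cm n × Cm n => W0 V p k j (C.pt γ a q.1) (C.pt γ' b q.2)) q :=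
  ((ContDiffAt.sum fun I _ => ContDiffAt.sum fun I' _ => contDiffAt_Om k
    (fun α => (cd_of_an (famx_an γ hq.1 I α)).comp q contDiffAt_fst)
    fun α => (cd_of_an (famx_an γ' hq.2 I' α)).comp q contDiffAt_snd).mul
    (((exp_cd hq.1 _).comp q contDiffAt_fst).mul
      ((exp_cd hq.2 _).comp q contDiffAt_snd))).congr_of_eventuallyEq
    ((((C.isOpen_B 4 a).prod (C.isOpen_B 4 b)).eventually_mem hq).mono fun w hw =>
      W0_eq hV hj γ γ' hw.1 hw.2)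

theorem W0_cd' (hV : V.VD p) (hj : 1 ≤ j) (x : E) (γ : Γ) (hz : z ∈ C.B 4 a) :
    ContDiffAt ℝ ∞ (fun w => W0 V p k j x (C.pt γ a w)) z := by
  obtain ⟨⟨g, b, z'⟩, hz', rfl⟩ := exists_rep C x
  exact (W0_cd hV hj g γ (q := (z', z)) ⟨hz', hz⟩).comp z (contDiffAt_const.prodMk contDiffAt_id)

theorem Q0_cd {q : Cm n × (Fin p → Cm n)} (hq : q.1 ∈ C.B 4 a) :
    ContDiffAt ℝ ∞ (fun q : Cm n × (Fin p → Cm n) => Q0 V j a q.1 q.2) q :=
  (contDiffAt_G fun α => cd_of_an (famq_an 1 hq α)).mul ((exp_cd hq _).comp q contDiffAt_fst)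

theorem WQ0_cd {q : Cm n × (Fin p → Cm n)} (hq : q.1 ∈ C.B 4 a) :
    ContDiffAt ℝ ∞ (fun q : Cm n × (Fin p → Cm n) => WQ0 V k j x γ a q.1 q.2) q :=
  (ContDiffAt.sum fun I _ => contDiffAt_Om k (x := fun _ => AA V j x I)
    (y := fun q : Cm n × (Fin p → Cm n) => fam V j γ a q.1 q.2) (fun α => contDiffAt_const)
    fun α => cd_of_an (famq_an γ hq α)).mul ((exp_cd hq _).comp q contDiffAt_fst)

theorem F0_cont (hV : V.VD p) (hj : 1 ≤ j) : Continuous (F0 V p j) :=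
  continuous_iff_continuousAt.2 fun y => by
    obtain ⟨⟨g, a, z⟩, hz, rfl⟩ := exists_rep C y
    have := (F0_cd hV hj g hz).continuousAt.tendsto
    rwa [ContinuousAt, ← C.map_pt' hz g, tendsto_map'_iff]

theorem W0_cont (hV : V.VD p) (hj : 1 ≤ j) : Continuous fun q : E × E => W0 V p k j q.1 q.2 :=
  continuous_iff_continuousAt.2 fun ⟨x, y⟩ => by
    obtain ⟨⟨g, a, z⟩, hz, rfl⟩ := exists_rep C x
    obtain ⟨⟨g', b, z'⟩, hz', rfl⟩ := exists_rep C y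
    have := (W0_cd (k := k) hV hj g g' (q := (z, z')) ⟨hz, hz'⟩).continuousAt.tendsto
    rw [nhds_prod_eq] at this
    rwa [ContinuousAt, nhds_prod_eq, ← C.map_pt' hz g, ← C.map_pt' hz' g', prod_map_map_eq,
      tendsto_map'_iff]

variable {μ β A : ℝ}

theorem F0_psh (hV : V.VD p) (hj : 1 ≤ j) (hμ : 0 < μ) (hβ : 0 ≤ β) (h : ex P m p j * β ≤ A)
    (a : C.I) : LPsh (fun z => (F0 V p j (C.pt 1 a z) / μ) ^ β * Real.exp (A * C.ρ a z)) (C.B 4 a) :=
  lpsh_rt (lpsh_sum _ fun I _ => lpsh_G fun α w hw => famx_an 1 hw I α) (ρ_psh C a) (ρ_cont C a) hμ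
    hβ h fun w hw => by rw [F0_eq hV hj 1 hw]; rfl

theorem W0_psh (hV : V.VD p) (hj : 1 ≤ j) (hμ : 0 < μ) (hβ : 0 ≤ β) (h : ex P m p j * β ≤ A) (γ : Γ)
    (a b : C.I) : LPsh (fun q : Cm n × Cm n => (W0 V p k j (C.pt 1 a q.1) (C.pt γ b q.2) / μ) ^ β *
      Real.exp (A * C.ρ a q.1 + A * C.ρ b q.2)) (C.B 4 a ×ˢ C.B 4 b) := by
  have h1 : ContinuousOn (fun q : Cm n × Cm n => C.ρ a q.1) (C.B 4 a ×ˢ C.B 4 b) :=
    (ρ_cont C a).comp continuousOn_fst fun _ h => h.1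
  have h2 : ContinuousOn (fun q : Cm n × Cm n => C.ρ b q.2) (C.B 4 a ×ˢ C.B 4 b) :=
    (ρ_cont C b).comp continuousOn_snd fun _ h => h.2
  refine lpsh_rt (S := fun q : Cm n × Cm n => ∑ I : Fin p → Fin n, ∑ I' : Fin p → Fin n,
      Om k (fam V j 1 a q.1 (xf P a q.1 I)) (fam V j γ b q.2 (xf P b q.2 I')))
    (lpsh_sum _ fun I _ => lpsh_sum _ fun I' _ => lpsh_Om k
    (fun α w hw => (famx_an 1 hw.1 I α).comp analyticAt_fst)
    fun α w hw => (famx_an γ hw.2 I' α).comp analyticAt_snd)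
    (((ρ_psh C a).fst _).add ((ρ_psh C b).snd _) (.of_cont h1) (.of_cont h2)) (h1.add h2) hμ hβ h
    fun w hw => ?_
  rw [W0_eq hV hj 1 γ hw.1 hw.2, wt, wt, ← Real.exp_add, mul_add, mul_add, neg_add]

theorem Q0_psh (hμ : 0 < μ) (hβ : 0 ≤ β) (h : (m * rr p j : ℕ) * β ≤ A) (a : C.I) :
    LPsh (fun q : Cm n × (Fin p → Cm n) => (Q0 V j a q.1 q.2 / μ) ^ β * Real.exp (A * C.ρ a q.1))
      (C.B 4 a ×ˢ univ) :=
  lpsh_rt (lpsh_G fun α w hw => famq_an 1 hw.1 α) ((ρ_psh C a).fst _)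
    ((ρ_cont C a).comp continuousOn_fst fun _ h => h.1) hμ hβ h fun w hw => rfl

theorem WQ0_psh (hμ : 0 < μ) (hβ : 0 ≤ β) (h : (m * rr p j : ℕ) * β ≤ A) (x : E) (γ : Γ) (a : C.I) :
    LPsh (fun q : Cm n × (Fin p → Cm n) => (WQ0 V k j x γ a q.1 q.2 / μ) ^ β *
      Real.exp (A * C.ρ a q.1)) (C.B 4 a ×ˢ univ) :=
  lpsh_rt (S := fun q : Cm n × (Fin p → Cm n) => ∑ I : Fin p → Fin n,
      Om k (AA V j x I) (fam V j γ a q.1 q.2))
    (lpsh_sum _ fun I _ => lpsh_Om k (x := fun _ => AA V j x I)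
      (y := fun q : Cm n × (Fin p → Cm n) => fam V j γ a q.1 q.2) (fun α w _ => analyticAt_const)
    fun α w hw => famq_an γ hw.1 α) ((ρ_psh C a).fst _)
    ((ρ_cont C a).comp continuousOn_fst fun _ h => h.1) hμ hβ h fun w hw => rfl

theorem F0_an (hV : V.VD p) (hj : 1 ≤ j) (hz : z ∈ C.B 4 a) (h : 0 < F0 V p j (C.pt 1 a z)) :
    ∃ f : Cm n → ℂ, AnalyticOnNhd ℂ f (C.B 4 a) ∧ f z ≠ 0 ∧
      ∀ w ∈ C.B 4 a, f w ≠ 0 → 0 < F0 V p j (C.pt 1 a w) := by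
  obtain ⟨I, h1, -⟩ := BB_eq hV hj hz h
  refine ⟨fun w => (gm (fam V j 1 a z (xf P a z I)) (fam V j 1 a w (xf P a w I))).det,
    fun w hw => analyticAt_det_gm _ fun α => famx_an 1 hw I α, ?_, fun w hw h2 => ?_⟩
  · show (gm _ _).det ≠ 0
    rw [det_gm_self]; exact_mod_cast h1.ne'
  · have h3 := (pow_pos (norm_pos_iff.2 h2) 2).trans_le (norm_det_gm_sq _ _)
    refine F0_pos_iff.2 ⟨I, ?_⟩
    rw [(rel_A hV hj 1 hw I).1]
    exact mul_pos wt_pos ((pos_iff_pos_of_mul_pos h3).1 h1)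

theorem W0_pole (hV : V.VD p) (hj : 1 ≤ j) (hz : z ∈ C.B 4 a) {N : ℕ}
    (hN : ∀ T : Finset (Idx p j), T.card = k → N ≤ ∑ α ∈ T, (j + 1 - dg α.1)) :
    ∃ K ≥ (0 : ℝ), ∀ᶠ w in 𝓝 z, W0 V p k j (C.pt 1 a z) (C.pt 1 a w) ≤ K * ‖w - z‖ ^ N := by
  have h1 : ∀ I I' : Fin p → Fin n, (fun w => Om k (fam V j 1 a z (xf P a z I))
      (fam V j 1 a w (xf P a w I'))) =O[𝓝 z] fun w => ‖w - z‖ ^ N := fun I I' => by
    rcases (G_nonneg (fam V j 1 a z (xf P a z I))).eq_or_lt with h | h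
    · simp only [Om_eq_zero h.symm]; exact isBigO_zero _ _
    choose c hc hn using near (j := j) (LL_an V 1 hz) (LL_rk hV 1 hz)
      ((LL_im V 1 hz).2 (fam_im hj hz h)) (ξ' := fun w => xf P a w I')
      (continuousAt_pi.2 fun i => (xf_an P hz I' i).continuousAt)
    let t : Idx p j → ℝ := fun α =>
      c α + ‖fam V j 1 a z (xf P a z I) α‖ + (‖fam V j 1 a z (xf P a z I') α‖ + 1)
    have ht : ∀ α, t α ≤ ∑ α, t α := fun α => Finset.single_le_sum (f := t)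
      (fun α _ => by have := hc α; positivity) (Finset.mem_univ α)
    obtain ⟨K, -, hK⟩ := Om_pole (rr p j) (∑ α, t α)
    refine IsBigO.of_bound K ?_
    filter_upwards [eventually_all.2 hn, ball_mem_nhds z one_pos, eventually_all.2 fun α =>
      (famx_an (V := V) (j := j) 1 hz I' α).continuousAt.norm.eventually (gt_mem_nhds (lt_add_one _))]
      with w h2 h3 h4
    rw [Real.norm_of_nonneg (Om_nonneg _ _ _), Real.norm_of_nonneg (by positivity)]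
    refine hK rfl k N _ hN _ (norm_nonneg _) (mem_ball_iff_norm.1 h3).le _ _ (fun α => ?_)
      (fun α => ?_) fun α => ?_
    · refine le_trans ?_ (ht α)
      have := hc α
      have := norm_nonneg (fam V j 1 a z (xf P a z I') α)
      simp only [t]; linarith
    · refine (h4 α).le.trans (le_trans ?_ (ht α))
      have := hc α
      have := norm_nonneg (fam V j 1 a z (xf P a z I) α)
      simp only [t]; linarith
    · obtain ⟨v, h5, h6⟩ := h2 α
      refine ⟨v, h5, h6.trans (mul_le_mul_of_nonneg_right (le_trans ?_ (ht α)) (by positivity))⟩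
      have := norm_nonneg (fam V j 1 a z (xf P a z I') α)
      have := norm_nonneg (fam V j 1 a z (xf P a z I) α)
      simp only [t]; linarith
  have h2 : ContinuousAt (fun w => wt P m p j a z * wt P m p j a w) z :=
    continuousAt_const.mul (exp_cd hz _).continuousAt
  obtain ⟨K, hK, h3⟩ := ((IsBigO.sum (s := Finset.univ) fun I _ => IsBigO.sum (s := Finset.univ)
    fun I' _ => h1 I I').mul (h2.tendsto.isBigO_one ℝ)).exists_nonneg
  refine ⟨K, hK, ?_⟩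
  filter_upwards [h3.bound, (C.isOpen_B 4 a).mem_nhds hz] with w h4 hw
  rw [W0_eq hV hj 1 1 hz hw]
  simp only [Finset.sum_apply] at h4
  refine (le_abs_self _).trans (h4.trans (le_of_eq ?_))
  rw [mul_one, Real.norm_of_nonneg (by positivity)]

end Vale.Agent.P284Z.E
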