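import Vale.Agent.P284Z.E.Fac
import Vale.Agent.P284Z.D.Main

/-!
# P284Z, block E: invariance of the jets
-/

set_option linter.all false

open scoped ContDiff Topology
open Filter Set Metric

noncomputable section

namespace Vale.Agent.P284Z.E

open Ang Vale.Agent.P272.K

variable {W W' V V' : Type} [NormedAddCommGroup W] [NormedSpace ℂ W] [NormedAddCommGroup W']
  [NormedSpace ℂ W'] [NormedAddCommGroup V] [InnerProductSpace ℂ V] [NormedAddCommGroup V']
  [InnerProductSpace ℂ V'] {F : W → V} {z : W} {k p j : ℕ} {ξ : Fin p → W}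

section rel
variable {ι : Type} [Fintype ι] [DecidableEq ι] {A B X : ι → V} {c c' : ℝ}

theorem li_of_sp_le (h : LinearIndependent ℂ A) (hs : sp A ≤ sp B) : LinearIndependent ℂ B :=
  linearIndependent_iff_card_le_finrank_span.2
    ((linearIndependent_iff_card_eq_finrank_span.1 h).le.trans
      (Submodule.finrank_mono (s := sp A) (t := sp B) hs))

theorem sp_eq_of_le (h : LinearIndependent ℂ A) (hs : sp A ≤ sp B) : sp A = sp B :=
  Submodule.eq_of_le_of_finrank_le hs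
    ((finrank_range_le_card B).trans (linearIndependent_iff_card_eq_finrank_span.1 h).le)

theorem Om_eq_zero (h : G A = 0) (k : ℕ) (X : ι → V) : Om k A X = 0 :=
  le_antisymm (by simpa [h] using Om_le k A X) (Om_nonneg k A X)

/-- `A` is obtained from `B` by a change of basis, the square of the determinant being `c` -/
def Rel (c : ℝ) (A B : ι → V) : Prop := G A = c * G B ∧ (0 < G B → sp A ≤ sp B)

theorem Rel.om (h : Rel c A B) (k : ℕ) (X : ι → V) : Om k A X = c * Om k B X := by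
  rcases (G_nonneg B).eq_or_lt with h0 | h0
  · rw [Om_eq_zero h0.symm, Om_eq_zero (by rw [h.1, ← h0, mul_zero]), mul_zero]
  · refine mul_right_cancel₀ h0.ne' ?_
    rw [Om_sp_left k (h.2 h0), h.1]; ring

theorem Rel.om' (h : Rel c A B) (k : ℕ) (X : ι → V) : Om k X A = c * Om k X B := by
  rw [Om_symm, h.om, Om_symm]

theorem rel_act (M : Matrix ι ι ℂ) (B : ι → V) : Rel (‖M.det‖ ^ 2) (act M B) B :=
  ⟨G_act M B, fun _ => sp_act M B⟩

theorem rel_dep (h : ¬ LinearIndependent ℂ A) (h' : ¬ LinearIndependent ℂ B) (c : ℝ) : Rel c A B :=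
  ⟨by rw [G_eq_zero h, G_eq_zero h', mul_zero], fun h0 => absurd (G_pos_iff.1 h0) h'⟩

theorem Rel.sp_eq (h : Rel c A B) (hc : 0 < c) (h0 : 0 < G B) : sp A = sp B :=
  sp_eq_of_le (G_pos_iff.1 (by rw [h.1]; positivity)) (h.2 h0)

theorem Rel.trans (h : Rel c A B) (h' : Rel c' B X) (hc : 0 < c') : Rel (c * c') A X :=
  ⟨by rw [h.1, h'.1, mul_assoc], fun h0 => (h.2 (by rw [h'.1]; positivity)).trans (h'.2 h0)⟩

theorem Rel.symm (h : Rel c A B) (hc : 0 < c) : Rel c⁻¹ B A :=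
  ⟨by rw [h.1, inv_mul_cancel_left₀ hc.ne'], fun h0 =>
    (h.sp_eq hc (by rw [h.1] at h0; exact (pos_iff_pos_of_mul_pos h0).1 hc)).ge⟩

theorem rel_smul (t : ℂ) (B : ι → V) : Rel (‖t‖ ^ (2 * Fintype.card ι)) (fun i => t • B i) B :=
  ⟨G_smul t B, fun _ => Submodule.span_le.2 (by
    rintro _ ⟨i, rfl⟩; exact Submodule.smul_mem _ _ (Submodule.subset_span ⟨i, rfl⟩))⟩

end rel

variable [CompleteSpace V]

/-! ### jets of order at most one -/

/-- the multi-indices of order at most one -/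
def e1 (hj : 1 ≤ j) : Fin (p + 1) → Idx p j :=
  Fin.cons ⟨0, by simp⟩ fun i => ⟨Pi.single i 1, by simpa using hj⟩

theorem e1_inj (hj : 1 ≤ j) : Function.Injective (e1 (p := p) hj) := by
  refine Fin.cons_injective_iff.2 ⟨?_, fun i i' h => ?_⟩
  · rintro ⟨i, hi⟩
    simpa using congrFun (congrArg Subtype.val hi) i
  · by_contra h'
    simpa [h'] using congrFun (congrArg Subtype.val h) i

theorem e1_surj : Function.Surjective (e1 (p := p) le_rfl) := by
  intro α
  by_cases h : α.1 = 0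
  · exact ⟨0, Subtype.ext h.symm⟩
  · obtain ⟨i, hi⟩ := Function.ne_iff.1 h
    refine ⟨i.succ, Subtype.ext (funext fun l => ?_)⟩
    have h1 := α.2
    rw [← Finset.add_sum_erase _ _ (Finset.mem_univ i)] at h1
    have h2 : α.1 i ≠ 0 := hi
    show (Pi.single i 1 : Fin p → ℕ) l = α.1 l
    by_cases hl : l = i
    · rw [hl, Pi.single_eq_same]; omega
    · have := Finset.single_le_sum (f := α.1) (fun _ _ => Nat.zero_le _)
        (Finset.mem_erase.2 ⟨hl, Finset.mem_univ l⟩)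
      rw [Pi.single_eq_of_ne hl]; omega

theorem NN_one : NN p 1 = 1 := by
  have h := NN_eq (p := p) (j := 1)
  rw [← Fintype.card_congr (Equiv.ofBijective _ ⟨e1_inj (p := p) le_rfl, e1_surj⟩), Fintype.card_fin] at h
  exact Nat.eq_of_mul_eq_mul_left (Nat.succ_pos p) (by rw [h]; simp)

theorem jets_e1 (ha : AnalyticAt ℂ F z) (hj : 1 ≤ j) (ξ : Fin p → W) :
    jets j F z ξ ∘ e1 hj = j1 F z ξ := by
  funext i
  exact Fin.cases (jet_zero F z ξ) (fun i => jet_single ha ξ i) i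

theorem im_of_li (ha : AnalyticAt ℂ F z) (hj : 1 ≤ j) (h : LinearIndependent ℂ (jets j F z ξ)) :
    Im F z ξ := by
  rw [Im, ← jets_e1 ha hj]; exact h.comp _ (e1_inj hj)

theorem li_of_im (ha : AnalyticAt ℂ F z) (h : Im F z ξ) : LinearIndependent ℂ (jets 1 F z ξ) := by
  rw [Im, ← jets_e1 ha le_rfl] at h
  exact (linearIndependent_equiv (Equiv.ofBijective _ ⟨e1_inj le_rfl, e1_surj⟩)).1 h

theorem Im.of_comp {G : W' → V} {u : W' → W} {t : W' → ℂ} {z' : W'} {ζ : Fin p → W'}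
    (ha : AnalyticAt ℂ F z) (hu : AnalyticAt ℂ u z') (h0 : u z' = z) (ht : AnalyticAt ℂ t z')
    (e : G =ᶠ[𝓝 z'] fun w => t w • F (u w)) (h : Im G z' ζ) :
    Im F z fun i => fderiv ℂ u z' (ζ i) := by
  refine li_of_sp_le h (Submodule.span_le.2 ?_)
  have h1 : F z ∈ sp (j1 F z fun i => fderiv ℂ u z' (ζ i)) := Submodule.subset_span ⟨0, rfl⟩
  rintro _ ⟨i, rfl⟩
  refine Fin.cases ?_ (fun i => ?_) i
  · show G z' ∈ _
    rw [e.self_of_nhds]; beta_reduce; rw [h0]; exact Submodule.smul_mem _ _ h1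
  · show fderiv ℂ G z' (ζ i) ∈ _
    have h2 : HasFDerivAt F (fderiv ℂ F z) (u z') := h0.symm ▸ ha.differentiableAt.hasFDerivAt
    have h3 := (ht.differentiableAt.hasFDerivAt.fun_smul
      (h2.comp z' hu.differentiableAt.hasFDerivAt)).fderiv
    rw [e.fderiv_eq]
    erw [h3]
    simp only [ContinuousLinearMap.add_apply, ContinuousLinearMap.smul_apply,
      ContinuousLinearMap.smulRight_apply, Function.comp_apply, h0]
    exact Submodule.add_mem _ (Submodule.smul_mem _ _ (Submodule.subset_span ⟨i.succ, rfl⟩))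
      (Submodule.smul_mem _ _ h1)

theorem im_iso (U : V →ₗᵢ[ℂ] V') (ha : AnalyticAt ℂ F z) : Im (fun w => U (F w)) z ξ ↔ Im F z ξ := by
  have h : j1 (fun w => U (F w)) z ξ = U.toLinearMap ∘ j1 F z ξ := by
    funext i
    refine Fin.cases rfl (fun i => ?_) i
    exact congrArg (fun L : W →L[ℂ] V' => L (ξ i))
      (U.toContinuousLinearMap.hasFDerivAt.comp z ha.differentiableAt.hasFDerivAt).fderiv
  rw [Im, h]
  exact U.toLinearMap.linearIndependent_iff (LinearMap.ker_eq_bot.2 U.injective)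

theorem jets_iso [CompleteSpace V'] (U : V →ₗᵢ[ℂ] V') (ha : AnalyticAt ℂ F z) (ξ : Fin p → W) :
    jets j (fun w => U (F w)) z ξ = fun α => U (jets j F z ξ α) :=
  funext fun α => jet_clm U.toContinuousLinearMap ha ξ α.1

/-! ### consequences of the factorisation -/

theorem Fac.ord (h : Fac F z ξ) (ha : AnalyticAt ℂ F z) (T : V →L[ℂ] V)
    (hT : ∀ α, dg α < k → T (jet F z ξ α) = 0) : Ord k (fun w => T (F w)) z := by
  obtain ⟨a, π, h1, h2, h3, -, h4⟩ := h
  have h5 := ord_of_jet ((T.analyticAt _).comp ha) ξ fun α hα => (jet_clm T ha ξ α).trans (hT α hα)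
  have h6 := (ord_zero h1.continuousAt).smul (h5.comp h2.differentiableAt h3)
  rw [zero_add] at h6
  refine h6.congr (h4.mono fun w hw => ?_)
  simp only [Function.comp_apply]
  rw [hw, map_smul]

theorem exists_kill (S : Submodule ℂ V) [FiniteDimensional ℂ S] :
    ∃ T : V →L[ℂ] V, (∀ v, T v = 0 ↔ v ∈ S) ∧ ∀ v, v - T v ∈ S := by
  haveI := FiniteDimensional.complete ℂ S
  refine ⟨ContinuousLinearMap.id ℂ V - S.starProjection, fun v => ?_, fun v => ?_⟩
  · rw [← Submodule.starProjection_eq_self_iff, ContinuousLinearMap.sub_apply, sub_eq_zero, eq_comm]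
    rfl
  · simp

variable [CompleteSpace W] {G' : W' → V} {u : W' → W} {t : W' → ℂ} {z' : W'} {ζ : Fin p → W'}

theorem Fac.top (h : Fac F z ξ) (ha : AnalyticAt ℂ F z) (hu : AnalyticAt ℂ u z') (h0 : u z' = z)
    (ht : AnalyticAt ℂ t z') (ζ : Fin p → W') (α : Idx p j) :
    jets j (fun w => t w • F (u w)) z' ζ α - t z' • jets j F z (fun i => fderiv ℂ u z' (ζ i)) α ∈
      Submodule.span ℂ (jets j F z ξ '' {β | dg β.1 < dg α.1}) := by
  haveI := FiniteDimensional.span_of_finite ℂ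
    ((Set.toFinite {β : Idx p j | dg β.1 < dg α.1}).image (jets j F z ξ))
  obtain ⟨T, hT, -⟩ := exists_kill (Submodule.span ℂ (jets j F z ξ '' {β | dg β.1 < dg α.1}))
  have hTF : AnalyticAt ℂ (fun w => T (F w)) z := (T.analyticAt _).comp ha
  have h1 := (h.ord (k := dg α.1) ha T fun β hβ => (hT _).2
    (Submodule.subset_span ⟨⟨β, hβ.le.trans α.2⟩, hβ, rfl⟩)).top hTF hu h0 ht
  set A := fderiv ℂ u z' with hA
  have h2 : AnalyticAt ℂ (fun w => t w • F (u w)) z' := ht.smul (ha.comp_of_eq hu h0)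
  have h3 : z - A z' + A z' = z := sub_add_cancel _ _
  have h4 : AnalyticAt ℂ (fun w => T (F (z - A z' + A w))) z' :=
    hTF.comp_of_eq (analyticAt_const.add (A.analyticAt _)) h3
  have h5 : AnalyticAt ℂ (fun w => T (t w • F (u w))) z' := (T.analyticAt _).comp h2
  have h6 : Ord (dg α.1 + 1) (fun w => T (t w • F (u w)) - t z' • T (F (z - A z' + A w))) z' :=
    h1.congr (Eventually.of_forall fun w => by
      simp only [map_smul, map_sub]; congr 4; abel)
  obtain ⟨w, hw⟩ := exists_word α.1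
  have h7 := congrArg (fun L => L fun l => ζ (w l))
    (h6.iD_eq_zero (h5.fun_sub (analyticAt_const.fun_smul h4)) (Nat.lt_succ_self _))
  have h8 := iD_aff (f := fun w => T (F w)) A (z - A z') (h3.symm ▸ hTF) fun l => ζ (w l)
  have h9 := jet_eq ha (fun i => A (ζ i)) w
  have h10 := jet_eq h2 ζ w
  rw [hw] at h9 h10
  beta_reduce at h7
  rw [iD_comb h5 h4, h8, h3, iD_clm T h2, iD_clm T ha, ← h9, ← h10] at h7
  refine (hT _).1 ?_
  rw [map_sub, map_smul]
  exact h7

theorem Fac.mat (h : Fac F z ξ) (ha : AnalyticAt ℂ F z) (hu : AnalyticAt ℂ u z') (h0 : u z' = z)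
    (ht : AnalyticAt ℂ t z') (e : G' =ᶠ[𝓝 z'] fun w => t w • F (u w)) {C : Matrix (Fin p) (Fin p) ℂ}
    (hC : (fun i => fderiv ℂ u z' (ζ i)) = mf C ξ) : ∃ M : Matrix (Idx p j) (Idx p j) ℂ,
      jets j G' z' ζ = act M (jets j F z ξ) ∧
        M.det = t z' ^ Fintype.card (Idx p j) * C.det ^ NN p j := by
  obtain ⟨R, hR, e1⟩ := exists_mat _ _ _ (h.top (j := j) ha hu h0 ht ζ)
  obtain ⟨S, hS, e2, e3⟩ := jets_mf (j := j) ha C ξ
  refine ⟨t z' • S + R, ?_, ?_⟩
  · rw [act_add, ← e1, hC, e3]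
    funext α
    have h2 : AnalyticAt ℂ (fun w => t w • F (u w)) z' := ht.smul (ha.comp_of_eq hu h0)
    have h3 : act (t z' • S) (jets j F z ξ) α = t z' • act S (jets j F z ξ) α := by
      simp [act, Finset.smul_sum, smul_smul]
    rw [h3, add_sub_cancel]
    exact (jet_congr h2 e.symm ζ α.1).symm
  · rw [det_add_strict (fun α => dg α.1) (fun α β h => by rw [Matrix.smul_apply, hS α β h.ne, smul_zero])
      hR, Matrix.det_smul, e2]

/-- all the frames are compared with a good one -/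
theorem Fac.theta (h : Fac F z ξ) (ha : AnalyticAt ℂ F z) : ∃ D : W →L[ℂ] Cm p, ∀ j (ξ' : Fin p → W),
    ∃ M : Matrix (Idx p j) (Idx p j) ℂ, jets j F z ξ' = act M (jets j F z ξ) ∧
      M.det = (Matrix.of fun k l => D (ξ' k) l).det ^ NN p j := by
  obtain ⟨a, π, h1, h2, h3, h4, h5⟩ := id h
  refine ⟨fderiv ℂ π z, fun j ξ' => ?_⟩
  have hd : HasFDerivAt (fun w => z + fr ξ (π w)) ((fr ξ).comp (fderiv ℂ π z)) z :=
    ((fr ξ).hasFDerivAt.comp z h2.differentiableAt.hasFDerivAt).const_add z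
  obtain ⟨M, e1, e2⟩ := h.mat (j := j) (ζ := ξ') (C := Matrix.of fun k l => fderiv ℂ π z (ξ' k) l) ha
    (analyticAt_const.add (((fr ξ).analyticAt _).comp h2)) (by simp [h3]) h1 h5
    (by funext i; erw [hd.fderiv]; simp [fr_apply, mf])
  exact ⟨M, e1, by rw [e2, h4, one_pow, one_mul]⟩

theorem rel_comp (ha : AnalyticAt ℂ F z) (hr : Rk p F z) (hu : AnalyticAt ℂ u z') (h0 : u z' = z)
    (ht : AnalyticAt ℂ t z') (e : G' =ᶠ[𝓝 z'] fun w => t w • F (u w)) (hj : 1 ≤ j) :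
    Rel (‖t z'‖ ^ (2 * Fintype.card (Idx p j))) (jets j G' z' ζ)
      (jets j F z fun i => fderiv ℂ u z' (ζ i)) := by
  by_cases hi : Im F z fun i => fderiv ℂ u z' (ζ i)
  · obtain ⟨M, e1, e2⟩ := (fac_of ha hr hi).mat (j := j) (ζ := ζ) (C := 1) ha hu h0 ht e
      (by funext i; simp [mf, Matrix.one_apply, ite_smul])
    have := rel_act M (jets j F z fun i => fderiv ℂ u z' (ζ i))
    rwa [← e1, e2, Matrix.det_one, one_pow, mul_one, norm_pow, ← pow_mul, mul_comm] at this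
  · have h2 : AnalyticAt ℂ G' z' := (ht.smul (ha.comp_of_eq hu h0)).congr e.symm
    exact rel_dep (fun h => hi ((im_of_li h2 hj h).of_comp ha hu h0 ht e))
      (fun h => hi (im_of_li ha hj h)) _

theorem sp_le_of_li (ha : AnalyticAt ℂ F z) (hr : Rk p F z) (hi : Im F z ξ) (ξ' : Fin p → W) :
    sp (jets j F z ξ') ≤ sp (jets j F z ξ) := by
  obtain ⟨D, hD⟩ := (fac_of ha hr hi).theta ha
  obtain ⟨M, e, -⟩ := hD j ξ'
  rw [e]; exact sp_act _ _

theorem G_mf (ha : AnalyticAt ℂ F z) (M : Matrix (Fin p) (Fin p) ℂ) (ξ : Fin p → W) :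
    Rel (‖M.det‖ ^ (2 * NN p j)) (jets j F z (mf M ξ)) (jets j F z ξ) := by
  obtain ⟨S, -, e2, e3⟩ := jets_mf (j := j) ha M ξ
  have := rel_act S (jets j F z ξ)
  rwa [← e3, e2, norm_pow, ← pow_mul, mul_comm] at this

/-- the jets at nearby points are close to the span of the jets at `z` -/
theorem near (ha : AnalyticAt ℂ F z) (hr : Rk p F z) (hi : Im F z ξ) {ξ' : W → Fin p → W}
    (hξ : ContinuousAt ξ' z) (α : Idx p j) : ∃ C ≥ (0 : ℝ), ∀ᶠ w in 𝓝 z, ∃ c ∈ sp (jets j F z ξ),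
      ‖jets j F w (ξ' w) α - c‖ ≤ C * ‖w - z‖ ^ (j + 1 - dg α.1) := by
  obtain ⟨T, hT, hT'⟩ := exists_kill (sp (jets j F z ξ))
  have hTF : AnalyticAt ℂ (fun w => T (F w)) z := (T.analyticAt _).comp ha
  have h1 := (fac_of ha hr hi).ord (k := j + 1) ha T fun β hβ => (hT _).2
    (Submodule.subset_span ⟨⟨β, Nat.lt_succ_iff.1 hβ⟩, rfl⟩)
  have h2 : dg α.1 ≤ j := α.2
  obtain ⟨C, hC, h3⟩ := (Ord.jet_mov (k := j + 1 - dg α.1) (α := α.1) hTF hξ
    (by rwa [Nat.sub_add_cancel (by omega)])).bound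
  refine ⟨C, hC, ?_⟩
  filter_upwards [h3, ha.eventually_analyticAt] with w h3 h4
  refine ⟨_, hT' (jets j F w (ξ' w) α), ?_⟩
  rw [sub_sub_cancel]
  rwa [jet_clm T h4] at h3

end Vale.Agent.P284Z.E
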